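import Vale.Agent.N017.New
import Vale.Agent.P004H.H924.Cartier
import Vale.Agent.P004N.H169.Ell

/-!
# P017: the newform of level 15 belongs to the curve `y² = x³ - 12987 x - 263466`
-/

open PowerSeries Filter

namespace Vale.Agent.N017

open P004H.H924 (th bar key U_eigen bar_th coeff_eq_charSum natDegree_cub coeff_U cub)

lemma param : ∃ A B : ℤ⟦X⟧, constantCoeff B = 4 ∧
    (x * a * b : CZ).1 * th ℤ A - 2 * A * th ℤ (x * a * b : CZ).1 = -(B * (x * a * b : CZ).1) ∧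
    B ^ 2 = 2 * A ^ 3 + 101 * A ^ 2 * (x * a * b : CZ).1 ^ 2 + 1620 * A * (x * a * b : CZ).1 ^ 4 +
      8100 * (x * a * b : CZ).1 ^ 6 := by
  have hW : W.1 = a.1 * b.1 + 3 * (th ℤ a.1 * b.1 - th ℤ b.1 * a.1) := by
    have e : ∀ p : CZ, (dd p).1 = th ℤ p.1 := fun _ => rfl
    simp only [W, a, b]
    push_cast
    simp only [e, Derivation.leibniz, smul_eq_mul, show (3 : CZ).1 = 3 from rfl]
    ring
  have hQ := congrArg Subtype.val quart
  have hF : (x * a * b : CZ).1 = X * a.1 * b.1 := rfl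
  have hX : th ℤ (X : ℤ⟦X⟧) = X := by simp [th]
  have t0 : ∀ p : ℤ⟦X⟧, constantCoeff (th ℤ p) = 0 := fun p => by simp [th]
  have c1 := ca
  have c2 := cb
  push_cast at hQ
  rw [show x.1 = X from rfl, hW, show (10 : CZ).1 = 10 from rfl, show (13 : CZ).1 = 13 from rfl]
    at hQ
  have tn : ∀ n : ℕ, th ℤ (n : ℤ⟦X⟧) = 0 := fun n => Derivation.map_natCast _ n
  have t5 : th ℤ (5 : ℤ⟦X⟧) = 0 := tn 5
  have t10 : th ℤ (10 : ℤ⟦X⟧) = 0 := tn 10
  have t13 : th ℤ (13 : ℤ⟦X⟧) = 0 := tn 13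
  have t19 : th ℤ (19 : ℤ⟦X⟧) = 0 := tn 19
  generalize (x * a * b : CZ).1 = F, a.1 = s, b.1 = t at *
  obtain ⟨i, hi⟩ : ∃ i, s * i = 1 := ⟨_, mul_invOfUnit s 1 c1⟩
  have i0 : constantCoeff i = 1 := by simpa [c1] using congrArg constantCoeff hi
  have s0 : s ≠ 0 := left_ne_zero_of_mul_eq_one hi
  obtain ⟨v, hv, v0⟩ : ∃ v, v * s ^ 2 = t ^ 4 ∧ constantCoeff v = 1 :=
    ⟨t ^ 4 * i ^ 2, by rw [mul_assoc, ← mul_pow, mul_comm i, hi, one_pow, mul_one],
      by simp [c2, i0]⟩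
  obtain ⟨σ, hσ, σ0⟩ : ∃ σ, σ * s ^ 3 = (s * t + 3 * (th ℤ s * t - th ℤ t * s)) * t ^ 3 ∧
      constantCoeff σ = 1 := ⟨(s * t + 3 * (th ℤ s * t - th ℤ t * s)) * t ^ 3 * i ^ 3, by
    rw [mul_assoc, ← mul_pow, mul_comm i, hi, one_pow, mul_one], by simp [c1, c2, i0, t0]⟩
  have k1 : F * th ℤ v - v * th ℤ F = -(σ * F) := by
    have h := congrArg (th ℤ) hv
    simp only [Derivation.leibniz, Derivation.leibniz_pow, smul_eq_mul, nsmul_eq_mul] at h
    refine mul_left_cancel₀ (pow_ne_zero 3 s0) ?_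
    rw [hF]
    simp only [Derivation.leibniz, smul_eq_mul, hX]
    push_cast at h
    linear_combination X * s ^ 2 * t * h - s * X * (s * t + 3 * t * th ℤ s + s * th ℤ t) * hv +
      X * s * t * hσ
  have k2 : σ ^ 2 = v ^ 4 - 10 * F * v ^ 3 - 13 * F ^ 2 * v ^ 2 + 10 * F ^ 3 * v + F ^ 4 := by
    refine mul_left_cancel₀ (pow_ne_zero 8 s0) ?_
    rw [show s ^ 8 * σ ^ 2 = (σ * s ^ 3) ^ 2 * s ^ 2 by ring, show s ^ 8 * (v ^ 4 - 10 * F * v ^ 3 -
      13 * F ^ 2 * v ^ 2 + 10 * F ^ 3 * v + F ^ 4) = (v * s ^ 2) ^ 4 -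
      10 * F * s ^ 2 * (v * s ^ 2) ^ 3 - 13 * F ^ 2 * s ^ 4 * (v * s ^ 2) ^ 2 +
      10 * F ^ 3 * s ^ 6 * (v * s ^ 2) + F ^ 4 * s ^ 8 by ring, hσ, hv, hF]
    linear_combination t ^ 4 * hQ
  have k3 : F * th ℤ σ - 2 * σ * th ℤ F =
      -(F * (2 * v ^ 3 - 15 * F * v ^ 2 - 13 * F ^ 2 * v + 5 * F ^ 3)) := by
    have h := congrArg (th ℤ) k2
    simp only [map_add, map_sub, Derivation.leibniz, Derivation.leibniz_pow, smul_eq_mul,
      nsmul_eq_mul, t10, t13] at h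
    refine mul_left_cancel₀ (show 2 * σ ≠ 0 from fun e => by
      simpa [σ0, map_ofNat] using congrArg constantCoeff e) ?_
    push_cast at h
    linear_combination F * h - 4 * th ℤ F * k2 +
      2 * (2 * v ^ 3 - 15 * F * v ^ 2 - 13 * F ^ 2 * v + 5 * F ^ 3) * k1
  refine ⟨v ^ 2 - 5 * v * F - 19 * F ^ 2 + σ,
    (2 * v - 5 * F) * (v ^ 2 - 5 * v * F - 19 * F ^ 2 + σ) - 90 * F ^ 3, ?_, ?_, ?_⟩
  · simp [hF, v0, σ0, map_ofNat]
  · simp only [map_add, map_sub, Derivation.leibniz, Derivation.leibniz_pow, smul_eq_mul,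
      nsmul_eq_mul, t5, t19]
    push_cast
    linear_combination k3 + (2 * v - 5 * F) * k1
  · linear_combination -2 * (v ^ 2 - 5 * v * F - 19 * F ^ 2 + σ) * k2

lemma an_cong {p : ℕ} [hp : Fact p.Prime] (h5 : 5 ≤ p) :
    (an p : ZMod p) = (-P004M.TE.cs ((-12987 : ℤ) : ZMod p) ((-263466 : ℤ) : ZMod p) : ℤ) := by
  obtain ⟨A, B, h0, h1, h2⟩ := param
  have n : ∀ k : ℕ, 0 < k → k < 5 → (k : ZMod p) ≠ 0 := fun k k0 k1 e => by
    have := Nat.le_of_dvd k0 ((ZMod.natCast_eq_zero_iff k p).1 e)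
    omega
  have n2 : (2 : ZMod p) ≠ 0 := by simpa using n 2 two_pos (by norm_num)
  have n3 : (3 : ZMod p) ≠ 0 := by simpa using n 3 three_pos (by norm_num)
  have a1 : coeff 1 (bar p (x * a * b : CZ).1) = 1 := by
    rw [bar, coeff_map, ← an, an_tab.2.1, map_one]
  have f0 : bar p (x * a * b : CZ).1 ≠ 0 := fun e => by rw [e] at a1; simp at a1
  have hk := key p A B _ h1 f0
  have h3 := congrArg (bar p) h1
  have h4 := congrArg (bar p) h2
  simp only [map_sub, map_mul, map_neg, bar_th, map_ofNat, map_add, map_pow] at h3 h4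
  have e : (C (2⁻¹ : ZMod p) : (ZMod p)⟦X⟧) * 2 = 1 := by
    rw [← map_ofNat (C (R := ZMod p)), ← map_mul, inv_mul_cancel₀ n2, map_one]
  have h5 := U_eigen p (by omega) (C 2⁻¹ * bar p A) (C 2⁻¹ * bar p B) _ 101 405 2025 (by
      rw [← smul_eq_C_mul, Derivation.map_smul, smul_eq_C_mul, smul_eq_C_mul]
      linear_combination C 2⁻¹ * h3) (by
      simp only [map_ofNat]
      generalize (C (2⁻¹ : ZMod p) : (ZMod p)⟦X⟧) = c, bar p (x * a * b : CZ).1 = F at *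
      linear_combination c ^ 2 * h4 + (-2 * c ^ 2 * bar p A ^ 3 + 810 * c * bar p A * F ^ 4 +
        2025 * (2 * c + 1) * F ^ 6) * e) f0 (fun k => by
      have := congrArg constantCoeff k
      rw [map_mul, bar, ← coeff_zero_eq_constantCoeff_apply (PowerSeries.map _ _), coeff_map,
        coeff_zero_eq_constantCoeff_apply, h0] at this
      simp [n2] at this
      exact n 4 four_pos (by norm_num) (by simpa using this)) (by
      rw [mul_pow, ← map_pow, ZMod.pow_card_sub_one_eq_one (inv_ne_zero n2), map_one, one_mul,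
        mul_left_comm, ← smul_eq_C_mul, map_smul, hk, smul_eq_C_mul])
  have h6 := congrArg (coeff 1) h5
  rw [coeff_U, coeff_C_mul, a1, mul_one, mul_one, coeff_eq_charSum p (by omega) _
    (natDegree_cub _ _ _), bar, coeff_map, ← an] at h6
  rw [Int.cast_neg, P004M.TE.cs, Int.cast_sum]
  refine h6.trans (congrArg _ (Fintype.sum_bijective (fun t => 36 * t + 303)
    (Finite.injective_iff_bijective.1 fun t s h => mul_left_cancel₀ (show (36 : ZMod p) ≠ 0 by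
      rw [show (36 : ZMod p) = 2 ^ 2 * 3 ^ 2 by norm_num]; positivity) (by linear_combination h))
    _ _ fun t => ?_))
  have : (36 * t + 303) ^ 3 + ((-12987 : ℤ) : ZMod p) * (36 * t + 303) + (-263466 : ℤ) =
      108 ^ 2 * (cub (ZMod p) 101 405 2025).eval t := by
    simp [cub]
    ring
  rw [this, map_mul, @quadraticChar_sq_one' _ _ _ (_) _ (by
    rw [show (108 : ZMod p) = 2 ^ 2 * 3 ^ 3 by norm_num]; positivity), one_mul]
  exact congrArg (fun i => (((@quadraticChar (ZMod p) _ _ i) _ : ℤ) : ZMod p))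
    (Subsingleton.elim _ _)

theorem f_att : P004N.Att (-12987) (-263466) an := by
  obtain ⟨⟨ε, h⟩, -⟩ := f_nf
  obtain ⟨C, δ, -, hδ, hb⟩ := P004N.pfPowN 15 f _ ε h
  obtain ⟨n, hn⟩ := eventually_atTop.1 (P004Z.EF.Al.small hδ hb)
  refine ⟨(n + 5).factorial, Nat.factorial_ne_zero _, fun p hp k => ?_⟩
  have := Fact.mk hp
  have k1 : n + 5 < p := not_le.1 fun e => k (Nat.dvd_factorial hp.pos e)
  have k2 : ¬ (p : ℤ) ∣ 2 * (4 * (-12987) ^ 3 + 27 * (-263466) ^ 2) := fun e => by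
    have e1 : p ∣ 30 ^ 16 := Int.natCast_dvd_natCast.1 (e.trans (by norm_num))
    have e2 := hp.dvd_of_dvd_pow e1
    have := Nat.le_of_dvd (by norm_num) e2
    have : 5 < p := by omega
    interval_cases p <;> first | omega | norm_num at hp
  refine (P004M.TE.al_eq k2).trans (hn p (by omega) _ (by
    rw [neg_sq]; exact P004M.TE.cs_le k2) ?_)
  rw [← ZMod.intCast_eq_intCast_iff_dvd_sub]
  exact an_cong (by omega)

end Vale.Agent.N017
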