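import Mathlib

/-! # P017: the definitions used in the statement -/

open Filter Topology NumberField
open scoped Classical

namespace Vale.Agent.N017

/-- The modular curve `X₀(15)` (Cremona label 15a1): `y² + xy + y = x³ + x² - 10x - 10`. -/
def X015 : WeierstrassCurve ℚ := ⟨1, 1, 1, -10, -10⟩

/-- `K` is an imaginary quadratic field of discriminant `D`. -/
def IsImQuad (K : Type) [Field K] [NumberField K] (D : ℤ) : Prop :=
  Module.finrank ℚ K = 2 ∧ IsTotallyComplex K ∧ discr K = D

/-- `D` is the discriminant of some imaginary quadratic field. -/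
def IsDisc (D : ℤ) : Prop := ∃ (K : Type) (_ : Field K) (_ : NumberField K), IsImQuad K D

/-- The Mordell-Weil group `X₀(15)(K)` has rank `j` for the imaginary quadratic field `K` of
discriminant `D`. -/
def RankIs (j : ℕ) (D : ℤ) : Prop := ∀ (K : Type) [Field K] [NumberField K], IsImQuad K D →
  Module.rank ℤ (X015.baseChange K).toAffine.Point = j

/-- The Mordell-Weil group `X₀(15)(K)` is finite for the imaginary quadratic field `K` of
discriminant `D`. -/
def IsFin (D : ℤ) : Prop := ∀ (K : Type) [Field K] [NumberField K], IsImQuad K D →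
  Finite (X015.baseChange K).toAffine.Point

/-- `D ≡ 2 (mod 3)` (the prime `3` is inert) if and only if `D ≡ ±1 (mod 5)` (the prime `5`
splits). -/
def Good (D : ℤ) : Prop := D % 3 = 2 ↔ (D % 5 = 1 ∨ D % 5 = 4)

/-- Among the discriminants `D` of imaginary quadratic fields with the property `S` and `|D| ≤ X`,
the proportion of those with the property `P` tends to `ρ`. -/
def Proportion (S P : ℤ → Prop) (ρ : ℝ) : Prop :=
  Tendsto (fun X : ℕ =>
    (((Finset.Icc (-(X : ℤ)) X).filter fun D => IsDisc D ∧ S D ∧ P D).card : ℝ) /
      ((Finset.Icc (-(X : ℤ)) X).filter fun D => IsDisc D ∧ S D).card) atTop (𝓝 ρ)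

end Vale.Agent.N017
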