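import Vale.Agent.N017.Defs
import Vale.Agent.N004.Prog

/-!
# P017: explicit densities of negative fundamental discriminants modulo `15`
-/

open Filter Topology Finset
open scoped Classical

namespace Vale.Agent.N017

open _root_.P004 (Fam IsFund)
open Vale.Agent.P004H.H871 (Fd)
open P004N.T8 (Dens)
open N004

/-- the classes modulo `3600` of the fundamental discriminants -/
def Adm (n : ℤ) : Prop := (n % 4 = 1 ∨ n % 16 = 8 ∨ n % 16 = 12) ∧ n % 9 ≠ 0 ∧ n % 25 ≠ 0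

instance : DecidablePred Adm := fun _ => by unfold Adm; infer_instance

instance : DecidablePred Good := fun _ => by unfold Good; infer_instance

lemma fd_iff {n : ℤ} : Fd n ↔ Adm n ∧ Free 3600 n := by
  have p3 : Nat.Prime 3 := by norm_num
  have p5 : Nat.Prime 5 := by norm_num
  have key : ∀ d : ℤ, d % 4 ≠ 0 → d % 9 ≠ 0 → d % 25 ≠ 0 → Free 3600 d → Squarefree d :=
    fun d h2 h3 h5 h => sqf_iff.2 fun p hp k => by
      by_cases c : p ∣ 3600
      · have : p ∣ 2 * (3 * 5) := hp.dvd_of_dvd_pow (n := 4) (c.trans (by norm_num))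
        rcases (Nat.Prime.dvd_mul hp).1 this with e | e
        · rw [(Nat.prime_dvd_prime_iff_eq hp Nat.prime_two).1 e] at k
          omega
        · rcases (Nat.Prime.dvd_mul hp).1 e with e | e
          · rw [(Nat.prime_dvd_prime_iff_eq hp p3).1 e] at k
            omega
          · rw [(Nat.prime_dvd_prime_iff_eq hp p5).1 e] at k
            omega
      · exact h p hp c k
  refine ⟨fun h => ⟨?_, free_of_fd (t := 15) h⟩, fun ⟨⟨h1, h2, h3⟩, h4⟩ => ?_⟩
  · rcases h with ⟨h, k⟩ | ⟨d, rfl, h, k⟩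
    all_goals
      have k3 := sqf_iff.1 k 3 p3
      have k5 := sqf_iff.1 k 5 p5
      unfold Adm
      omega
  · by_cases c : n % 4 = 1
    · exact .inl ⟨c, key n (by omega) h2 h3 h4⟩
    · refine .inr ⟨n / 4, by omega, by omega, key _ (by omega) (by omega) (by omega)
        fun p hp k1 k2 => h4 p hp k1 ?_⟩
      rw [show n = 4 * (n / 4) by omega]
      exact k2.mul_left _

lemma cnt_exp {P : ℤ → Prop} {_ : DecidablePred P} (hP : ∀ D, P D ↔ P (D % 3600)) {n : ℕ}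
    (hn : ((Ico (0 : ℤ) 3600).filter fun b => Adm b ∧ P b).card = n) :
    Tendsto (fun X : ℕ => (cnt (fun D => D < 0 ∧ P D) X - n * g 3600 1 0 X) / X) atTop (𝓝 0) := by
  obtain ⟨T, hT, hn⟩ : ∃ T : Finset ℤ, (∀ b, b ∈ T ↔ (0 ≤ b ∧ b < 3600) ∧ Adm b ∧ P b) ∧
    T.card = n := ⟨_, fun b => by rw [mem_filter, mem_Ico], hn⟩
  have ad : ∀ D, Adm D ↔ Adm (D % 3600) := fun D => by unfold Adm; omega
  have e : ∀ X, (cnt (fun D => D < 0 ∧ P D) X - n * g 3600 1 0 X) / X =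
      ∑ b ∈ T, (g 3600 (-1) b X - g 3600 1 0 X) / X := by
    intro X
    rw [← sum_div, sum_sub_distrib, sum_const, nsmul_eq_mul, hn]
    unfold cnt
    rw [card_eq_sum_card_fiberwise (f := fun D : ℤ => D % 3600) (t := T) fun D hD => ?_,
      Nat.cast_sum]
    · refine congrArg (· / (X : ℝ)) (congrArg (· - _)
        (sum_congr rfl fun b hb => congrArg _ (congrArg _ ?_)))
      obtain ⟨h1, h2, h3⟩ := (hT b).1 hb
      have h4 : b % 3600 = b := Int.emod_eq_of_lt h1.1 h1.2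
      ext D
      simp only [mem_filter, mem_flt, mem_fam, mem_box, fd_iff, Int.ModEq, Nat.cast_ofNat, h4]
      exact ⟨fun h => ⟨h.1.1.1, by omega, h.2, h.1.1.2.2.2⟩, fun h => ⟨⟨⟨h.1, by omega,
        (ad D).2 (h.2.2.1 ▸ h2), h.2.2.2⟩, by omega, (hP D).2 (h.2.2.1 ▸ h3)⟩, h.2.2.1⟩⟩
    · obtain ⟨h1, h2⟩ := mem_flt.1 (mem_coe.1 hD)
      exact mem_coe.2 ((hT _).2 ⟨by beta_reduce; omega,
        (ad D).1 (fd_iff.1 (mem_fam.1 h1).2.2).1, (hP D).1 h2.2⟩)
  simp only [e]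
  rw [show (0 : ℝ) = ∑ _b ∈ T, 0 from sum_const_zero.symm]
  exact tendsto_finsetSum _ fun b _ => g_sub (by norm_num) (.inr rfl) (.inl rfl) b 0

lemma card_all : ((Ico (0 : ℤ) 3600).filter fun b => Adm b ∧ True).card = 1152 := by
  decide +kernel

lemma card_good : ((Ico (0 : ℤ) 3600).filter fun b => Adm b ∧ Good b).card = 600 := by
  decide +kernel

lemma dens_neg {m : ℕ} (hm : m ≠ 0) {P : ℤ → Prop} (hP : ∀ D D', D ≡ D' [ZMOD m] → P D → P D')
    (h : ∃ D, Fd D ∧ P D) : ∃ u : ℝ, 0 < u ∧ Tendsto (fun X : ℕ =>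
      cnt (fun D => D < 0 ∧ P D) X / (Fam X).card) atTop (𝓝 u) := by
  obtain ⟨u, h1, h2⟩ := dens hm hP
  refine ⟨u, by exact_mod_cast h1 h, ?_⟩
  simpa only [neg_mul, one_mul, neg_pos] using h2 (-1) (.inr rfl)

lemma dens_good : ∃ u : ℝ, 0 < u ∧
    Tendsto (fun X : ℕ => cnt (fun D => D < 0 ∧ True) X / (Fam X).card) atTop (𝓝 u) ∧
    Tendsto (fun X : ℕ => cnt (fun D => D < 0 ∧ Good D) X / (Fam X).card) atTop
      (𝓝 (25 / 48 * u)) := by
  obtain ⟨u, h1, h2⟩ := dens_neg one_ne_zero (P := fun _ => True) (fun _ _ _ h => h)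
    ⟨1, .inl ⟨rfl, squarefree_one⟩, trivial⟩
  refine ⟨u, h1, h2, ?_⟩
  have k1 := small (cnt_exp (P := fun _ => True) (fun _ => Iff.rfl) card_all)
  have k2 := small (cnt_exp (P := Good) (fun D => by unfold Good; omega) card_good)
  have := k2.add ((h2.sub k1).const_mul (25 / 48))
  rw [sub_zero, zero_add] at this
  exact this.congr fun X => by push_cast; ring

variable {r : ℤ → ℕ}

/-- properties which agree in rank at most one have the same density -/
lemma prop_of (hd : ∀ D, IsDisc D ↔ Fd D ∧ D < 0) (h1 : Dens r)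
    (h2 : ∀ k, 1 ≤ k → P004N.T8.Mean r k) {S P P' : ℤ → Prop} {u v : ℝ} (hu : u ≠ 0)
    (k1 : Tendsto (fun X : ℕ => cnt (fun D => D < 0 ∧ S D) X / (Fam X).card) atTop (𝓝 u))
    (k2 : Tendsto (fun X : ℕ => cnt (fun D => D < 0 ∧ P' D) X / (Fam X).card) atTop (𝓝 v))
    (h : ∀ D, Fd D → D < 0 → r D ≤ 1 → (S D ∧ P D ↔ P' D)) : Proportion S P (v / u) := by
  have e : ∀ (R : ℤ → Prop) (X : ℕ), (((Icc (-(X : ℤ)) X).filter fun D => IsDisc D ∧ R D).card : ℝ)
      = cnt (fun D => D < 0 ∧ R D) X := fun R X => congrArg _ (congrArg _ (by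
    ext D
    simp only [mem_filter, mem_flt, mem_fam, hd, mem_Icc]
    exact ⟨fun h => ⟨⟨h.1, by omega, h.2.1.1⟩, h.2.1.2, h.2.2⟩,
      fun h => ⟨h.1.1, ⟨h.1.2.2, h.2.1⟩, h.2.2⟩⟩))
  have b : ∀ R : ℤ → Prop, Tendsto (fun X : ℕ => cnt (fun D => R D ∧ 2 ≤ r D) X / (Fam X).card)
      atTop (𝓝 0) := fun R => (big h1 h2 R (f := fun _ => 1) (k := 0) fun n hn =>
    ⟨zero_le_one, by rw [zero_add, pow_one]; exact_mod_cast (by omega : 1 ≤ n)⟩).congr
      fun X => av_one _ X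
  have s : ∀ (R : ℤ → Prop) (X : ℕ), cnt R X =
      cnt (fun D => R D ∧ r D ≤ 1) X + cnt (fun D => R D ∧ 2 ≤ r D) X := fun R X =>
    cnt_or (fun D _ => by rw [← and_or_left, and_iff_left (by omega)]) (fun D h k => by omega) X
  have k3 : Tendsto (fun X : ℕ => cnt (fun D => D < 0 ∧ S D ∧ P D) X / (Fam X).card) atTop
      (𝓝 v) := by
    have := (k2.sub (b fun D => D < 0 ∧ P' D)).add (b fun D => D < 0 ∧ S D ∧ P D)
    rw [sub_zero, add_zero] at this
    refine this.congr fun X => ?_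
    have e2 : cnt (fun D => (D < 0 ∧ S D ∧ P D) ∧ r D ≤ 1) X =
        cnt (fun D => (D < 0 ∧ P' D) ∧ r D ≤ 1) X := congrArg _ (congrArg _ (by
      ext D
      simp only [mem_flt]
      exact and_congr_right fun k => and_congr_left fun k' => and_congr_right fun k'' =>
        h D (mem_fam.1 k).2.2 k'' k'))
    rw [s fun D => D < 0 ∧ S D ∧ P D, s fun D => D < 0 ∧ P' D, e2]
    ring
  refine (k3.div k1 hu).congr' ?_
  filter_upwards [fam_ne] with X hX
  rw [Pi.div_apply, div_div_div_cancel_right₀ hX, ← e, ← e]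
  congr!

end Vale.Agent.N017
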