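import Vale.Agent.N017.Ser
import Vale.Agent.P022.H218.L3.Gal

/-!
# P017: eta quotients and Eisenstein series of level 15
-/

open UpperHalfPlane hiding I
open Complex Filter Topology Asymptotics CongruenceSubgroup
open scoped Real MatrixGroups ModularForm Manifold

namespace Vale.Agent.N017

open P004H.H204 (E2c E2c_mob)
open P004H.H792 (ee zt psi ee_mob den_ne den_ne' zt_congr zt_ne dvd12 det_eq)
open P022.H218.L3 (IsMF Hol)

/-- the denominator -/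
noncomputable def dn (γ : SL(2, ℤ)) (z : ℂ) : ℂ := (γ 1 0 : ℤ) * z + (γ 1 1 : ℤ)

/-- the action -/
noncomputable def mb (γ : SL(2, ℤ)) (z : ℂ) : ℂ := ((γ 0 0 : ℤ) * z + (γ 0 1 : ℤ)) / dn γ z

lemma sl_ap (F : ℂ → ℂ) (k : ℤ) (γ : SL(2, ℤ)) (z : ℍ) :
    ((fun τ : ℍ => F τ) ∣[k] γ) z = F (mb γ z) * dn γ z ^ (-k) := by
  rw [ModularForm.SL_slash_apply]
  congr 2
  rw [UpperHalfPlane.specialLinearGroup_apply]
  simp [mb, dn]

lemma hol_of {F : ℂ → ℂ} (h : ∀ z : ℂ, 0 < z.im → DifferentiableAt ℂ F z) :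
    (fun τ : ℍ => F τ) ∈ Hol := by
  refine UpperHalfPlane.mdifferentiable_iff.2 fun z hz => ?_
  refine ((h z hz).congr_of_eventuallyEq ?_).differentiableWithinAt
  filter_upwards [(isOpen_lt continuous_const Complex.continuous_im).mem_nhds hz] with w hw
  simp only [Function.comp_apply]
  rw [ofComplex_apply_of_im_pos hw]

/-- the greatest common divisor of `d` and the lower left entry -/
def gg (d : ℕ) (γ : SL(2, ℤ)) : ℕ := Nat.gcd (γ 1 0).natAbs d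

lemma dec {d : ℕ} (hd : d ≠ 0) (γ : SL(2, ℤ)) : ∃ (α x c y : ℤ) (w : ℍ → ℍ), α * y - x * c = 1 ∧
    γ 1 0 = gg d γ * c ∧ (∀ z, (w z).im = (gg d γ) ^ 2 / d * z.im) ∧ ∀ z : ℍ,
      c * (w z : ℂ) + y = gg d γ / d * dn γ z ∧ d * mb γ z = (α * w z + x) / (c * w z + y) := by
  have a0 : 0 < gg d γ := Nat.gcd_pos_of_pos_right _ (Nat.pos_of_ne_zero hd)
  obtain ⟨e, he⟩ : gg d γ ∣ d := Nat.gcd_dvd_right _ _
  obtain ⟨c, hc⟩ : (gg d γ : ℤ) ∣ γ 1 0 := Int.natCast_dvd.2 (Nat.gcd_dvd_left _ _)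
  have h1 : IsCoprime (e : ℤ) c := by
    have := Nat.coprime_div_gcd_div_gcd (m := (γ 1 0).natAbs) (n := d) a0
    change Nat.Coprime (_ / gg d γ) (_ / gg d γ) at this
    generalize gg d γ = a at *
    rw [hc, he, Int.natAbs_mul, Int.natAbs_natCast, Nat.mul_div_cancel_left _ a0,
      Nat.mul_div_cancel_left _ a0] at this
    exact Int.isCoprime_iff_gcd_eq_one.2 this.symm
  have h2 := det_eq γ
  obtain ⟨y, x, h3⟩ : IsCoprime (e * γ 0 0) c :=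
    h1.mul_left ⟨γ 1 1, -(γ 0 1 * gg d γ), by rw [hc] at h2; linear_combination h2⟩
  have e0 : (0 : ℝ) < e := by
    have : e ≠ 0 := by rintro rfl; exact hd he
    positivity
  have a1 : (0 : ℝ) < gg d γ := by exact_mod_cast a0
  have him : ∀ z : ℍ, (((gg d γ : ℕ) * z + (y * d * γ 0 1 + x * γ 1 1 : ℤ)) / (e : ℝ) : ℂ).im =
      gg d γ / e * z.im := fun z => by
    rw [div_ofReal_im]
    simp only [add_im, intCast_im, mul_im, natCast_re, natCast_im, coe_im]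
    ring
  refine ⟨e * γ 0 0, -x, c, y, fun z => ⟨_, (him z).symm ▸ mul_pos (div_pos a1 e0) z.2⟩,
    by linear_combination h3, hc, fun z => ?_, fun z => ?_⟩
  · refine (him z).trans ?_
    generalize gg d γ = a at *
    rw [he]
    push_cast
    field_simp
  · have k0 : dn γ z ≠ 0 := den_ne γ z.2
    have k1 : (e : ℂ) ≠ 0 := by exact_mod_cast e0.ne'
    have k2 : (gg d γ : ℂ) ≠ 0 := by exact_mod_cast a0.ne'
    have k3 := congrArg (Int.cast : ℤ → ℂ) h2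
    have k4 := congrArg (Int.cast : ℤ → ℂ) h3
    have k5 := congrArg (Int.cast : ℤ → ℂ) hc
    have k6 := congrArg (Nat.cast : ℕ → ℂ) he
    simp only [mb]
    generalize gg d γ = a at *
    push_cast at k3 k4 k5 k6 ⊢
    have k7 : (c : ℂ) * ((a * z + (y * d * γ 0 1 + x * γ 1 1)) / e) + y = a / d * dn γ z := by
      rw [k6, dn, k5]
      rw [k5] at k3
      field_simp
      linear_combination (γ 1 1 : ℂ) * k4 - y * e * k3
    refine ⟨k7, ?_⟩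
    rw [k7, k6]
    rw [k5] at k3
    field_simp
    linear_combination -(a * γ 0 1 : ℂ) * k4 - x * k3

lemma norm_zt (k : ℤ) : ‖zt ^ k‖ = 1 := by
  rw [P004H.H792.zt_zpow, norm_exp]
  simp

/-- the translate of `η (d z) ^ 2` -/
noncomputable def nn (d : ℕ) (γ : SL(2, ℤ)) (z : ℍ) : ℂ := ee (d * mb γ z) / dn γ z

lemma up {w : ℍ → ℍ} {r : ℝ} (hr : 0 < r) (h : ∀ z, (w z).im = r * z.im) :
    Tendsto w atImInfty atImInfty := by
  rw [atImInfty, tendsto_comap_iff, show UpperHalfPlane.im ∘ w = _ from funext h]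
  exact tendsto_comap.const_mul_atTop hr

lemma rpos {d : ℕ} (hd : d ≠ 0) (γ : SL(2, ℤ)) : (0 : ℝ) < gg d γ :=
  Nat.cast_pos.2 (Nat.gcd_pos_of_pos_right _ (Nat.pos_of_ne_zero hd))

lemma nn_lim {d : ℕ} (hd : d ≠ 0) (γ : SL(2, ℤ)) : Tendsto (fun z : ℍ =>
    ‖nn d γ z‖ * Real.exp (π / 6 * ((gg d γ) ^ 2 / d * z.im))) atImInfty (𝓝 (gg d γ / d)) := by
  obtain ⟨α, x, c, y, w, h1, -, h2, h3⟩ := dec hd γ
  have := rpos hd γ
  have k := ((ee_lim.comp tendsto_coe_atImInfty).comp (up (by positivity) h2)).const_mul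
    ((gg d γ : ℝ) / d)
  rw [mul_one] at k
  refine k.congr fun z => ?_
  have k0 : ‖dn γ z‖ ≠ 0 := norm_ne_zero_iff.2 (den_ne γ z.2)
  simp only [Function.comp_apply, coe_im]
  rw [nn, (h3 z).2, ee_mob h1 (w z).2, (h3 z).1, h2]
  simp only [norm_div, norm_mul, norm_zt, norm_natCast]
  field_simp

/-- an eta quotient -/
noncomputable def U (k l m n : ℤ) (z : ℂ) : ℂ :=
  ee ((1 : ℕ) * z) ^ k * ee ((3 : ℕ) * z) ^ l * ee ((5 : ℕ) * z) ^ m * ee ((15 : ℕ) * z) ^ n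

lemma U_sl (k l m n : ℤ) (γ : SL(2, ℤ)) (z : ℍ) :
    ((fun τ : ℍ => U k l m n τ) ∣[k + l + m + n] γ) z =
      nn 1 γ z ^ k * nn 3 γ z ^ l * nn 5 γ z ^ m * nn 15 γ z ^ n := by
  have k0 : dn γ z ≠ 0 := den_ne γ z.2
  rw [sl_ap]
  simp only [U, nn, div_zpow, zpow_neg, zpow_add₀ k0]
  field_simp

/-- the order of vanishing -/
noncomputable def od (k l m n : ℤ) (γ : SL(2, ℤ)) : ℝ :=
  k * ((gg 1 γ) ^ 2 / (1 : ℕ)) + l * ((gg 3 γ) ^ 2 / (3 : ℕ)) + m * ((gg 5 γ) ^ 2 / (5 : ℕ)) +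
    n * ((gg 15 γ) ^ 2 / (15 : ℕ))

lemma U_lim (k l m n : ℤ) (γ : SL(2, ℤ)) : ∃ κ : ℝ, 0 < κ ∧ Tendsto (fun z : ℍ =>
    ‖((fun τ : ℍ => U k l m n τ) ∣[k + l + m + n] γ) z‖ * Real.exp (π / 6 * od k l m n γ * z.im))
    atImInfty (𝓝 κ) := by
  have t := fun (d : ℕ) (hd : d ≠ 0) (j : ℤ) => (nn_lim hd γ).zpow₀ j
    (.inl (div_pos (rpos hd γ) (by positivity)).ne')
  have p := fun (d : ℕ) (hd : d ≠ 0) (j : ℤ) =>
    zpow_pos (div_pos (rpos hd γ) (show (0 : ℝ) < d by positivity)) j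
  refine ⟨_, mul_pos (mul_pos (mul_pos (p 1 one_ne_zero k) (p 3 (by norm_num) l))
    (p 5 (by norm_num) m)) (p 15 (by norm_num) n), ((((t 1 one_ne_zero k).mul
    (t 3 (by norm_num) l)).mul (t 5 (by norm_num) m)).mul (t 15 (by norm_num) n)).congr
    fun z => ?_⟩
  have e : ∀ (j : ℤ) (s : ℝ), Real.exp s ^ j = Real.exp (j * s) := fun j s => by
    rw [← Real.rpow_intCast, ← Real.exp_mul, mul_comm]
  rw [U_sl]
  simp only [norm_mul, norm_zpow, mul_zpow, e]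
  rw [show π / 6 * od k l m n γ * z.im = k * (π / 6 * ((gg 1 γ) ^ 2 / (1 : ℕ) * z.im)) +
    l * (π / 6 * ((gg 3 γ) ^ 2 / (3 : ℕ) * z.im)) + m * (π / 6 * ((gg 5 γ) ^ 2 / (5 : ℕ) * z.im)) +
    n * (π / 6 * ((gg 15 γ) ^ 2 / (15 : ℕ) * z.im)) by rw [od]; ring]
  simp only [Real.exp_add]
  ring

lemma gg_cases (γ : SL(2, ℤ)) : gg 1 γ = 1 ∧ gg 15 γ = gg 3 γ * gg 5 γ ∧
    (gg 3 γ = 1 ∨ gg 3 γ = 3) ∧ (gg 5 γ = 1 ∨ gg 5 γ = 5) :=
  ⟨Nat.gcd_one_right _, Nat.Coprime.gcd_mul _ (show Nat.Coprime 3 5 by norm_num),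
    (Nat.dvd_prime Nat.prime_three).1 (Nat.gcd_dvd_right _ _),
    (Nat.dvd_prime Nat.prime_five).1 (Nat.gcd_dvd_right _ _)⟩

lemma mb_mul {d : ℕ} (γ : SL(2, ℤ)) {c : ℤ} (h : γ 1 0 = d * c) (z : ℂ) :
    c * (d * z) + γ 1 1 = dn γ z ∧
      d * mb γ z = (γ 0 0 * (d * z) + (d * γ 0 1 : ℤ)) / (c * (d * z) + γ 1 1) := by
  have e : (c : ℂ) * (d * z) + γ 1 1 = dn γ z := by
    rw [dn, h]
    push_cast
    ring
  rw [e, mb]
  push_cast
  exact ⟨rfl, by ring⟩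

lemma nn_inv {d : ℕ} (hd : d ≠ 0) (γ : SL(2, ℤ)) {c : ℤ} (h : γ 1 0 = d * c) (z : ℍ) :
    nn d γ z = zt ^ psi (γ 0 0) (d * γ 0 1) c (γ 1 1) * ee (d * z) := by
  have k0 : dn γ z ≠ 0 := den_ne γ z.2
  have h2 := det_eq γ
  rw [nn, (mb_mul γ h z).2, ee_mob (by rw [h] at h2; linear_combination h2) (im_mul hd z.2),
    (mb_mul γ h z).1]
  field_simp

lemma g0 {γ : SL(2, ℤ)} (h : γ ∈ Gamma0 15) : ∃ c : ℤ, γ 1 0 = (1 : ℕ) * (15 * c) ∧
    γ 1 0 = (3 : ℕ) * (5 * c) ∧ γ 1 0 = (5 : ℕ) * (3 * c) ∧ γ 1 0 = (15 : ℕ) * c := by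
  obtain ⟨c, hc⟩ := (ZMod.intCast_zmod_eq_zero_iff_dvd (γ 1 0) 15).1 (Gamma0_mem.1 h)
  exact ⟨c, by omega, by omega, by omega, hc⟩

lemma ee_ne {d : ℕ} (hd : d ≠ 0) {z : ℂ} (hz : 0 < z.im) : ee (d * z) ≠ 0 :=
  pow_ne_zero 2 (ModularForm.eta_ne_zero (im_mul hd hz))

lemma U_mf {k l m n : ℤ} (h1 : ∀ γ, 0 ≤ od k l m n γ) (h2 : ∀ a b c d : ℤ,
    a * d - b * (15 * c) = 1 → (12 : ℤ) ∣ psi a (1 * b) (15 * c) d * k + psi a (3 * b) (5 * c) d * l +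
      psi a (5 * b) (3 * c) d * m + psi a (15 * b) c d * n) :
    IsMF (Gamma0 15) (k + l + m + n) fun τ : ℍ => U k l m n τ := by
  refine ⟨hol_of fun z hz => ?_, fun γ hγ => funext fun z => ?_, fun γ => ?_⟩
  · have t : ∀ (d : ℕ) (hd : d ≠ 0) (j : ℤ), DifferentiableAt ℂ (fun w => ee (d * w) ^ j) z :=
      fun d hd j => ((DifferentiableAt.comp z
        (ModularForm.differentiableAt_eta_of_mem_upperHalfPlaneSet (im_mul hd hz))
        (by fun_prop)).pow 2).zpow (.inl (ee_ne hd hz))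
    exact (((t 1 one_ne_zero k).mul (t 3 (by norm_num) l)).mul (t 5 (by norm_num) m)).mul
      (t 15 (by norm_num) n)
  · obtain ⟨c, e1, e3, e5, e15⟩ := g0 hγ
    have h3 := det_eq γ
    have h4 := zt_congr (l := 0) ((h2 (γ 0 0) (γ 0 1) c (γ 1 1)
      (by rw [e15] at h3; exact h3)).trans (sub_zero _).symm.dvd)
    rw [U_sl, nn_inv one_ne_zero γ e1, nn_inv (by norm_num) γ e3, nn_inv (by norm_num) γ e5,
      nn_inv (by norm_num) γ e15, U]
    simp only [zpow_add₀ zt_ne, zpow_mul, zpow_zero] at h4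
    simp only [mul_zpow]
    push_cast at h4 ⊢
    linear_combination (ee (1 * z) ^ k * ee (3 * z) ^ l * ee (5 * z) ^ m * ee (15 * z) ^ n) * h4
  · obtain ⟨κ, -, h⟩ := U_lim k l m n γ
    refine IsBigO.trans (IsBigO.of_bound' (Eventually.of_forall fun z => ?_)) (h.isBigO_one ℝ)
    rw [norm_mul, norm_norm, Real.norm_of_nonneg (Real.exp_pos _).le]
    exact le_mul_of_one_le_right (norm_nonneg _) (Real.one_le_exp
      (mul_nonneg (mul_nonneg (by positivity) (h1 γ)) z.2.le))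

lemma u3 : ∀ a b c d : ZMod 3, a * d - b * (15 * c) = 1 →
    ((1 - (15 * c) ^ 2) * (1 * b * d + 3 * (15 * c - 1) * d + 15 * c + 3) + 15 * c * (a + d - 3) +
    ((1 - c ^ 2) * (15 * b * d + 3 * (c - 1) * d + c + 3) + c * (a + d - 3))) +
    ((1 - (5 * c) ^ 2) * (3 * b * d + 3 * (5 * c - 1) * d + 5 * c + 3) + 5 * c * (a + d - 3) +
    ((1 - (3 * c) ^ 2) * (5 * b * d + 3 * (3 * c - 1) * d + 3 * c + 3) + 3 * c * (a + d - 3))) =
      0 := by
  decide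

lemma u4 : ∀ a b c d : ZMod 4, a * d - b * (15 * c) = 1 →
    ((1 - (15 * c) ^ 2) * (1 * b * d + 3 * (15 * c - 1) * d + 15 * c + 3) + 15 * c * (a + d - 3) +
    ((1 - c ^ 2) * (15 * b * d + 3 * (c - 1) * d + c + 3) + c * (a + d - 3)) = 0) ∧
    ((1 - (5 * c) ^ 2) * (3 * b * d + 3 * (5 * c - 1) * d + 5 * c + 3) + 5 * c * (a + d - 3) +
    ((1 - (3 * c) ^ 2) * (5 * b * d + 3 * (3 * c - 1) * d + 3 * c + 3) + 3 * c * (a + d - 3)) =
      0) := by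
  decide

lemma psi15 {a b c d : ℤ} (h : a * d - b * (15 * c) = 1) :
    (3 : ℤ) ∣ psi a (1 * b) (15 * c) d + psi a (15 * b) c d +
      (psi a (3 * b) (5 * c) d + psi a (5 * b) (3 * c) d) ∧
    (4 : ℤ) ∣ psi a (1 * b) (15 * c) d + psi a (15 * b) c d ∧
      (4 : ℤ) ∣ psi a (3 * b) (5 * c) d + psi a (5 * b) (3 * c) d := by
  have h3 := u3 a b c d (by exact_mod_cast congrArg (Int.cast : ℤ → ZMod 3) h)
  have h4 := u4 a b c d (by exact_mod_cast congrArg (Int.cast : ℤ → ZMod 4) h)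
  refine ⟨(ZMod.intCast_zmod_eq_zero_iff_dvd _ 3).1 ?_, (ZMod.intCast_zmod_eq_zero_iff_dvd _ 4).1 ?_,
    (ZMod.intCast_zmod_eq_zero_iff_dvd _ 4).1 ?_⟩ <;> simp only [psi] <;> push_cast
  exacts [h3, h4.1, h4.2]

lemma u_mf : IsMF (Gamma0 15) 2 fun τ : ℍ => U 2 (-1) (-1) 2 τ :=
  (U_mf (k := 2) (l := -1) (m := -1) (n := 2) (fun γ => by
    obtain ⟨e1, e2, e3 | e3, e5 | e5⟩ := gg_cases γ <;> rw [od, e1, e2, e3, e5] <;> norm_num)
    (fun a b c d h => by have := psi15 h; omega) :)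

lemma v_mf : IsMF (Gamma0 15) 2 fun τ : ℍ => U (-1) 2 2 (-1) τ :=
  (U_mf (k := -1) (l := 2) (m := 2) (n := -1) (fun γ => by
    obtain ⟨e1, e2, e3 | e3, e5 | e5⟩ := gg_cases γ <;> rw [od, e1, e2, e3, e5] <;> norm_num)
    (fun a b c d h => by have := psi15 h; omega) :)

/-- a combination of Eisenstein series -/
noncomputable def Ei (k l m n : ℂ) (z : ℂ) : ℂ :=
  k * ((1 : ℕ) * E2c ((1 : ℕ) * z)) + l * ((3 : ℕ) * E2c ((3 : ℕ) * z)) +
    m * ((5 : ℕ) * E2c ((5 : ℕ) * z)) + n * ((15 : ℕ) * E2c ((15 : ℕ) * z))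

lemma E2_bd {d : ℕ} (hd : d ≠ 0) (γ : SL(2, ℤ)) : ∃ g : ℍ → ℂ, IsBoundedAtImInfty g ∧ ∀ z : ℍ,
    d * E2c (d * mb γ z) = dn γ z ^ 2 * g z - 6 * I / π * γ 1 0 * dn γ z := by
  obtain ⟨α, x, c, y, w, h1, h4, h2, h3⟩ := dec hd γ
  have := rpos hd γ
  refine ⟨fun z => (gg d γ) ^ 2 / d * EisensteinSeries.E2 (w z),
    (EisensteinSeries.isBoundedAtImInfty_E2.comp_tendsto (up (by positivity) h2)).const_mul_left _,
    fun z => ?_⟩
  have k : (d : ℂ) ≠ 0 := by exact_mod_cast hd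
  rw [(h3 z).2, E2c_mob h1 (w z).2, (h3 z).1, P004H.H204.E2c_eq (w z).2, h4]
  push_cast
  field_simp

lemma E2_inv {d : ℕ} (hd : d ≠ 0) (γ : SL(2, ℤ)) {c : ℤ} (h : γ 1 0 = d * c) (z : ℍ) :
    d * E2c (d * mb γ z) = dn γ z ^ 2 * (d * E2c (d * z)) - 6 * I / π * γ 1 0 * dn γ z := by
  have h2 := det_eq γ
  rw [(mb_mul γ h z).2, E2c_mob (by rw [h] at h2; linear_combination h2) (im_mul hd z.2),
    (mb_mul γ h z).1, h]
  push_cast
  ring

lemma Ei_mf {k l m n : ℂ} (h : k + l + m + n = 0) :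
    IsMF (Gamma0 15) 2 fun τ : ℍ => Ei k l m n τ := by
  refine ⟨hol_of fun z hz => ?_, fun γ hγ => funext fun z => ?_, fun γ => ?_⟩
  · have t : ∀ (d : ℕ) (hd : d ≠ 0), DifferentiableAt ℂ (fun w => E2c (d * w)) z := fun d hd =>
      DifferentiableAt.comp (g := E2c) z
        ((UpperHalfPlane.mdifferentiable_iff.1 E2_mdifferentiable).differentiableAt
          (isOpen_upperHalfPlaneSet.mem_nhds (im_mul hd hz))) (by fun_prop)
    have t1 := t 1 one_ne_zero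
    have t3 := t 3 (by norm_num)
    have t5 := t 5 (by norm_num)
    have t15 := t 15 (by norm_num)
    unfold Ei
    fun_prop
  · obtain ⟨c, e1, e3, e5, e15⟩ := g0 hγ
    have k0 : dn γ z ≠ 0 := den_ne γ z.2
    rw [sl_ap, Ei, E2_inv one_ne_zero γ e1, E2_inv (by norm_num) γ e3, E2_inv (by norm_num) γ e5,
      E2_inv (by norm_num) γ e15, Ei, zpow_neg, mul_inv_eq_iff_eq_mul₀ (zpow_ne_zero _ k0),
      zpow_ofNat]
    linear_combination -(6 * I / π * γ 1 0 * dn γ z) * h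
  · obtain ⟨g1, b1, e1⟩ := E2_bd one_ne_zero γ
    obtain ⟨g3, b3, e3⟩ := E2_bd (d := 3) (by norm_num) γ
    obtain ⟨g5, b5, e5⟩ := E2_bd (d := 5) (by norm_num) γ
    obtain ⟨g15, b15, e15⟩ := E2_bd (d := 15) (by norm_num) γ
    refine ((((b1.const_mul_left k).add (b3.const_mul_left l)).add (b5.const_mul_left m)).add
      (b15.const_mul_left n)).congr_left fun z => ?_
    have k0 : dn γ z ≠ 0 := den_ne γ z.2
    rw [sl_ap, Ei, e1, e3, e5, e15, zpow_neg, eq_mul_inv_iff_mul_eq₀ (zpow_ne_zero _ k0),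
      zpow_ofNat]
    linear_combination (6 * I / π * γ 1 0 * dn γ z) * h

lemma index15 : (Gamma0 15).index ≤ 24 := by
  have : Fact (Nat.Prime 3) := ⟨by norm_num⟩
  have : Fact (Nat.Prime 5) := ⟨by norm_num⟩
  have h := P022.H218.L3.index_le_of_sep (Gamma0 15) (fun γ =>
    ((P022.H218.L3.pl 3 γ, P022.H218.L3.pl 5 γ) : Option (ZMod 3) × Option (ZMod 5))) (by
      intro a b h
      rw [Prod.mk.injEq] at h
      have h2 := P022.H218.L3.pl_sep 3 a b h.1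
      have h3 := P022.H218.L3.pl_sep 5 a b h.2
      rw [Gamma0_mem]
      rw [ZMod.intCast_zmod_eq_zero_iff_dvd] at h2 h3 ⊢
      push_cast at h2 h3 ⊢
      omega)
  simpa [Nat.card_eq_fintype_card] using h

/-- the Sturm bound in weight four -/
lemma vanish {F : ℍ → ℂ} (hF : IsMF (Gamma0 15) 4 F) (E D : CZ)
    (hD : PowerSeries.constantCoeff D.1 = 1) (h : ∀ z, F z * eZ z D = eZ z E)
    (hE : PowerSeries.X ^ 9 ∣ E.1) : E = 0 := by
  have h1 := eZ_lim D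
  rw [hD, Int.cast_one] at h1
  have h2 : F =O[atImInfty] fun τ => Real.exp (-(2 * π * (9 : ℕ) * τ.im)) := by
    have := (eZ_O E hE).mul ((h1.inv₀ one_ne_zero).isBigO_one ℝ)
    simp only [mul_one] at this
    refine this.congr' ?_ EventuallyEq.rfl
    filter_upwards [h1.eventually_ne one_ne_zero] with z hz
    rw [← h, mul_inv_cancel_right₀ hz]
  have h3 := P022.H29.L3.eq_zero_of_growth hF {1} (by simp) (c := (9 : ℕ))
    (by simpa using h2) (by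
      have : ((Gamma0 15).index : ℝ) ≤ 24 := by exact_mod_cast index15
      simp only [Finset.card_singleton]
      push_cast
      linarith)
  exact eZ_inj E fun z => by rw [← h, h3, Pi.zero_apply, zero_mul]

end Vale.Agent.N017
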