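import Vale.Agent.N017.Defs
import Vale.Agent.P017.H185.Fam
import Vale.Agent.P022.H724.Bas
import Vale.Agent.P004N.H3.Base

/-!
# P017: discriminants of imaginary quadratic fields
-/

open NumberField

namespace Vale.Agent.N017

open Vale.Agent.P004H.H871 (Fd)
open P017.H185 (QF exists_QF exists_QF_of_sqrt)
open P022.H724 (QB)
open P004N.T8 (Dm fd_Dm)

variable {K : Type} [Field K] [NumberField K] {d : ℕ}

lemma qb (q : QF K d) {e : ℤ} {w : K} (hw : IsIntegral ℤ w) (he : e = 1 ∨ e = 2)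
    (h2 : 2 * w = (2 - e : ℤ) + e * q.θ) {p : ℤ} (hp : 4 * p = -(2 - e) ^ 2 - d * e ^ 2)
    (hg : ∀ a b : ℤ, (4 : ℤ) ∣ a ^ 2 + d * b ^ 2 → ∃ u v, b = e * v ∧ a = 2 * u + (2 - e) * v) :
    discr K = (2 - e) ^ 2 + 4 * p := by
  obtain ⟨w, rfl⟩ := QF.exists_of_isInt hw
  refine QB.discr_eq ⟨w, p, 2 - e, QF.ext' ?_, fun x => ?_, fun a b h => ?_⟩
  · have h3 : (4 : K) * p = -(2 - e) ^ 2 - d * e ^ 2 := by exact_mod_cast hp
    simp only [map_add, map_mul, map_intCast]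
    push_cast at h2 ⊢
    linear_combination (1 / 4 : K) * (2 * algebraMap _ K w + e * q.θ - (2 - e)) * h2 - 1 / 4 * h3 +
      1 / 4 * e ^ 2 * q.hθ
  · obtain ⟨a, b, h3, h4⟩ := q.int_coords (QF.isInt x)
    obtain ⟨u, v, rfl, rfl⟩ := hg a b h4
    refine ⟨u, v, QF.ext' ?_⟩
    simp only [map_add, map_mul, map_intCast]
    push_cast at h2 h3 ⊢
    linear_combination (1 / 2 : K) * h3 - 1 / 2 * v * h2
  · have h3 := congrArg (algebraMap (𝓞 K) K) h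
    simp only [map_add, map_mul, map_intCast, map_zero] at h3
    obtain ⟨h4, h5⟩ := q.uniq (u := (2 * a + (2 - e) * b : ℤ)) (v := (e * b : ℤ)) (by
      push_cast at h2 ⊢
      linear_combination 2 * h3 - b * h2)
    have h4 : 2 * a + (2 - e) * b = 0 := by exact_mod_cast h4
    have h5 : e * b = 0 := by exact_mod_cast h5
    rcases he with rfl | rfl <;> omega

lemma discr_qf (q : QF K d) : discr K = Dm (-d) := by
  have h4 : d % 4 ≠ 0 := fun h => by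
    have := q.hd 2 (by omega)
    simp at this
  have sq : ∀ a : ℤ, (∃ k, a = 2 * k ∧ a ^ 2 = 4 * k ^ 2) ∨
      ∃ k, a = 2 * k + 1 ∧ a ^ 2 = 4 * (k ^ 2 + k) + 1 := fun a => by
    rcases Int.even_or_odd' a with ⟨k, rfl | rfl⟩
    exacts [.inl ⟨k, rfl, by ring⟩, .inr ⟨k, rfl, by ring⟩]
  unfold Dm
  split_ifs with h
  · obtain ⟨w, h1, h2⟩ := q.of_coords (a := 1) (b := 1) (by omega)
    rw [qb q (e := 1) h1 (.inl rfl) (by simpa using h2) (p := -(d + 1) / 4) (by omega)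
      fun a b k => ⟨(a - b) / 2, b, by ring, ?_⟩]
    · omega
    · obtain ⟨c, hc⟩ : ∃ c : ℤ, d = 4 * c + 3 := ⟨d / 4, by omega⟩
      rw [hc, add_mul, mul_assoc] at k
      rcases sq a with ⟨x, rfl, e⟩ | ⟨x, rfl, e⟩ <;> rcases sq b with ⟨y, rfl, e'⟩ | ⟨y, rfl, e'⟩ <;>
        omega
  · obtain ⟨w, h1, h2⟩ := q.of_coords (a := 0) (b := 2) ⟨d, by ring⟩
    rw [qb q (e := 2) h1 (.inr rfl) (by simpa using h2) (p := -d) (by ring)
      fun a b k => ⟨a / 2, b / 2, ?_⟩]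
    · ring
    · obtain ⟨c, hc⟩ : ∃ c : ℤ, d = 4 * c + 1 ∨ d = 4 * c + 2 := ⟨d / 4, by omega⟩
      rcases hc with hc | hc <;> rw [hc, add_mul, mul_assoc] at k <;>
        rcases sq a with ⟨x, rfl, e⟩ | ⟨x, rfl, e⟩ <;>
        rcases sq b with ⟨y, rfl, e'⟩ | ⟨y, rfl, e'⟩ <;> omega

/-- the data used for the descent to the rationals -/
lemma data {D : ℤ} (h : IsImQuad K D) : Fd D ∧ D < 0 ∧ ∃ (θ : K) (σ : K →+* K), θ ^ 2 = D ∧
    σ θ = -θ ∧ (∀ z, σ (σ z) = z) ∧ ∀ z, σ z = z → ∃ r : ℚ, z = r := by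
  obtain ⟨h1, h2, rfl⟩ := h
  have : Algebra.IsQuadraticExtension ℚ K := { finrank_eq_two' := h1 }
  obtain ⟨d, ⟨q⟩⟩ := exists_QF K
  have h3 := q.d_pos
  have h4 : ∀ z, q.σ z = z → ∃ r : ℚ, z = r := fun z e => ⟨q.re z, by
    linear_combination (1 / 2 : K) * q.σ_apply z + (1 / 2 : K) * q.eq_re_im z - 1 / 2 * e⟩
  rw [discr_qf q]
  refine ⟨fd_Dm (Int.squarefree_natAbs.1 (by simpa using q.hd)), ?_⟩
  unfold Dm
  split_ifs
  · exact ⟨by omega, q.θ, q.σ, by simpa using q.hθ, q.hσ, q.σσ, h4⟩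
  · refine ⟨by omega, 2 * q.θ, q.σ, ?_, ?_, q.σσ, h4⟩
    · push_cast
      linear_combination 4 * q.hθ
    · rw [map_mul, map_ofNat, ← mul_neg]
      exact congrArg _ q.hσ

lemma ex_field (hd : Squarefree d) : IsDisc (Dm (-d)) := by
  have h0 : (0 : ℚ) < d := by exact_mod_cast Nat.pos_of_ne_zero hd.ne_zero
  have : Fact (∀ r : ℚ, r ^ 2 ≠ -d + 0 * r) := ⟨fun r => by nlinarith [sq_nonneg r]⟩
  have h2 : Module.finrank ℚ (QuadraticAlgebra ℚ (-d) 0) = 2 := QuadraticAlgebra.finrank_eq_two _ _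
  have : NumberField (QuadraticAlgebra ℚ (-d) 0) := {}
  have h3 : (QuadraticAlgebra.omega : QuadraticAlgebra ℚ (-d) 0) ^ 2 = -d := by
    rw [sq, QuadraticAlgebra.omega_mul_omega_eq_mk]
    ext <;> simp
  have : Algebra.IsQuadraticExtension ℚ (QuadraticAlgebra ℚ (-d) 0) := { finrank_eq_two' := h2 }
  obtain ⟨q⟩ := exists_QF_of_sqrt hd h3
  refine ⟨QuadraticAlgebra ℚ (-d) 0, _, _, h2, ⟨fun w => ?_⟩, discr_qf q⟩
  rw [← InfinitePlace.not_isReal_iff_isComplex]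
  intro hw
  have h1 := congrArg (InfinitePlace.embedding_of_isReal hw) h3
  rw [map_pow, map_neg, map_natCast] at h1
  have h0 : (0 : ℝ) < d := by exact_mod_cast h0
  nlinarith [sq_nonneg (InfinitePlace.embedding_of_isReal hw QuadraticAlgebra.omega)]

theorem isDisc_iff (D : ℤ) : IsDisc D ↔ Fd D ∧ D < 0 := by
  refine ⟨fun ⟨_, _, _, h⟩ => ⟨(data h).1, (data h).2.1⟩, fun ⟨h, h0⟩ => ?_⟩
  rcases h with ⟨h1, h2⟩ | ⟨d, rfl, h1, h2⟩
  · have := ex_field (Int.squarefree_natAbs.2 h2)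
    rwa [Dm, show -(D.natAbs : ℤ) = D by omega, if_pos h1] at this
  · have := ex_field (Int.squarefree_natAbs.2 h2)
    rwa [Dm, show -(d.natAbs : ℤ) = d by omega, if_neg (by omega)] at this

end Vale.Agent.N017
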