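import Vale.Agent.N017.Eta

/-!
# P017: the cusp form of level 15 and the equation of the modular curve
-/

open UpperHalfPlane hiding I
open Complex Filter Topology Asymptotics CongruenceSubgroup PowerSeries
open scoped Real MatrixGroups ModularForm Manifold

namespace Vale.Agent.N017

open P004H.H204 (th coeff_th qq E2c)
open P004H.H792 (EP ec ec_table)
open P022.H218.L3 (IsMF Hol)

lemma trunc9 {R : Type*} [CommRing R] {y p r s t u v : R} (hy : y ^ 9 = 0)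
    (hp : p = 1 - y - y ^ 2 + y ^ 5 + y ^ 7) (hr : r = 1 - y ^ 3 - y ^ 6) (hs : s = 1 - y ^ 5)
    (ht : t = -y - 2 * y ^ 2 + 5 * y ^ 5 + 7 * y ^ 7) (hu : u = -3 * y ^ 3 - 6 * y ^ 6)
    (hv : v = -5 * y ^ 5) :
    -2 * (y * p ^ 3) ^ 2 + 2 * ((r * s) ^ 3) ^ 2 +
      (-2 * (p * (r * s)) + 3 * (t * (r * s) + (u * s - r * v) * p)) * (p * (r * s)) =
      y * p ^ 3 * (r * s) ^ 3 ∧
    ((p * (r * s) + 3 * (t * (r * s) - (u * s + r * v) * p)) * (p * (r * s))) ^ 2 =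
      (((r * s) ^ 3) ^ 2) ^ 2 - 10 * (y * p ^ 3 * (r * s) ^ 3) * ((r * s) ^ 3) ^ 2 -
      13 * (y * p ^ 3 * (r * s) ^ 3) ^ 2 + 10 * (y * p ^ 3 * (r * s) ^ 3) * (y * p ^ 3) ^ 2 +
      ((y * p ^ 3) ^ 2) ^ 2 ∧
    p * (r * s) = 1 - y - y ^ 2 - y ^ 3 + y ^ 4 + y ^ 5 + 3 * y ^ 7 + y ^ 8 := by
  have b1 : r * s =
      1 - y ^ 3 - y ^ 5 - y ^ 6 + y ^ 8 := by
    rw [hr, hs]
    linear_combination (y ^ 2) * hy
  have a2 : p ^ 2 =
      1 - 2 * y - y ^ 2 + 2 * y ^ 3 + y ^ 4 + 2 * y ^ 5 - 2 * y ^ 6 - 2 * y ^ 8 := by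
    rw [hp]
    linear_combination (-2 + y + 2 * y ^ 3 + y ^ 5) * hy
  have a3 : p ^ 3 =
      1 - 3 * y + 5 * y ^ 3 - 7 * y ^ 6 := by
    rw [pow_succ, a2, hp]
    linear_combination (2 + 6 * y - y ^ 2 + 2 * y ^ 3 - 4 * y ^ 4 - 2 * y ^ 6) * hy
  have b2 : (r * s) ^ 2 =
      1 - 2 * y ^ 3 - 2 * y ^ 5 - y ^ 6 + 4 * y ^ 8 := by
    rw [b1]
    linear_combination (2 + y + y ^ 3 - 2 * y ^ 4 - 2 * y ^ 5 + y ^ 7) * hy
  have b3 : (r * s) ^ 3 =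
      1 - 3 * y ^ 3 - 3 * y ^ 5 + 9 * y ^ 8 := by
    rw [pow_succ, b2, b1]
    linear_combination (3 + 2 * y - 3 * y ^ 2 + y ^ 3 - 6 * y ^ 4 - 5 * y ^ 5 + 4 * y ^ 7) * hy
  have ab : p * (r * s) =
      1 - y - y ^ 2 - y ^ 3 + y ^ 4 + y ^ 5 + 3 * y ^ 7 + y ^ 8 := by
    rw [b1, hp]
    linear_combination (-1 - 3 * y - y ^ 2 - y ^ 3 + y ^ 6) * hy
  have tb : t * (r * s) =
      -y - 2 * y ^ 2 + y ^ 4 + 7 * y ^ 5 + y ^ 6 + 10 * y ^ 7 - 3 * y ^ 8 := by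
    rw [b1, ht]
    linear_combination (-1 - 14 * y - 5 * y ^ 2 - 7 * y ^ 3 - 2 * y ^ 4 + 7 * y ^ 6) * hy
  have m1 : (u * s - r * v) * p =
      -3 * y ^ 3 + 3 * y ^ 4 + 8 * y ^ 5 - 11 * y ^ 6 + y ^ 7 + y ^ 8 := by
    rw [hp, hr, hs, hu, hv]
    linear_combination (2 + 4 * y - 5 * y ^ 2 + 4 * y ^ 3 - 9 * y ^ 4 - 2 * y ^ 6 + y ^ 7 +
      y ^ 9) * hy
  have m2 : (u * s + r * v) * p =
      -3 * y ^ 3 + 3 * y ^ 4 - 2 * y ^ 5 - y ^ 6 + 11 * y ^ 7 + 11 * y ^ 8 := by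
    rw [hp, hr, hs, hu, hv]
    linear_combination (-8 - 16 * y + 5 * y ^ 2 - 16 * y ^ 3 - 9 * y ^ 4 + 8 * y ^ 6 +
      11 * y ^ 7 + 11 * y ^ 9) * hy
  have x2 : (y * p ^ 3) ^ 2 =
      y ^ 2 - 6 * y ^ 3 + 9 * y ^ 4 + 10 * y ^ 5 - 30 * y ^ 6 + 11 * y ^ 8 := by
    rw [a3]
    linear_combination (42 - 70 * y ^ 2 + 49 * y ^ 5) * hy
  have y2 : ((r * s) ^ 3) ^ 2 =
      1 - 6 * y ^ 3 - 6 * y ^ 5 + 9 * y ^ 6 + 36 * y ^ 8 := by
    rw [b3]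
    linear_combination (9 * y - 54 * y ^ 2 - 54 * y ^ 4 + 81 * y ^ 7) * hy
  have xy : y * p ^ 3 * (r * s) ^ 3 =
      y - 3 * y ^ 2 + 2 * y ^ 4 + 9 * y ^ 5 - 3 * y ^ 6 - 13 * y ^ 7 := by
    rw [a3, b3]
    linear_combination (-6 - 6 * y + 66 * y ^ 3 - 63 * y ^ 6) * hy
  have w1 : (p * (r * s) + 3 * (t * (r * s) - (u * s + r * v) * p)) * (p * (r * s)) =
      1 - 5 * y - 4 * y ^ 2 + 18 * y ^ 3 - y ^ 4 + 29 * y ^ 5 - 36 * y ^ 6 - 25 * y ^ 7 -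
        83 * y ^ 8 := by
    rw [ab, tb, m2]
    linear_combination (33 + 92 * y + 40 * y ^ 2 + 38 * y ^ 3 + 5 * y ^ 4 + 6 * y ^ 5 -
      123 * y ^ 6 - 41 * y ^ 7) * hy
  refine ⟨?_, ?_, ab⟩
  · rw [x2, y2, xy, ab, tb, m1]
    linear_combination (51 - 31 * y + 28 * y ^ 2 + 158 * y ^ 3 - 55 * y ^ 4 + 51 * y ^ 5 +
      3 * y ^ 6 - 8 * y ^ 7) * hy
  · rw [w1, x2, y2, xy]
    linear_combination (-24 + 816 * y + 28 * y ^ 2 - 2682 * y ^ 3 - 4608 * y ^ 4 + 8060 * y ^ 5 +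
      900 * y ^ 6 + 5472 * y ^ 7) * hy

/-- truncation -/
noncomputable abbrev pr : ℤ⟦X⟧ →+* ℤ⟦X⟧ ⧸ Ideal.span {(X : ℤ⟦X⟧) ^ 9} := Ideal.Quotient.mk _

lemma pr_eq (p : ℤ⟦X⟧) : pr p = ∑ n ∈ Finset.range 9, (coeff n p : ℤ) * pr X ^ n := by
  have : ∑ n ∈ Finset.range 9, (coeff n p : ℤ) * pr X ^ n =
      pr (∑ n ∈ Finset.range 9, C (coeff n p) * X ^ n) := by
    simp
  rw [this, Ideal.Quotient.eq, Ideal.mem_span_singleton, X_pow_dvd_iff]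
  intro m hm
  simp only [map_sub, map_sum, coeff_C_mul, coeff_X_pow, mul_ite, mul_one, mul_zero]
  rw [Finset.sum_ite_eq, if_pos (Finset.mem_range.2 hm), sub_self]

/-- the Euler products -/
noncomputable def p1 : CZ := pd 1 one_ne_zero
/-- the Euler products -/
noncomputable def p3 : CZ := pd 3 (by norm_num)
/-- the Euler products -/
noncomputable def p5 : CZ := pd 5 (by norm_num)
/-- the Euler products -/
noncomputable def p15 : CZ := pd 15 (by norm_num)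
/-- `∏ (1 - q ^ n) (1 - q ^ (15 n))` -/
noncomputable def a : CZ := p1 * p15
/-- `∏ (1 - q ^ (3 n)) (1 - q ^ (5 n))` -/
noncomputable def b : CZ := p3 * p5
/-- an Eisenstein series times `a b` -/
noncomputable def Z : CZ :=
  -2 * (a * b) + 3 * ((dd p1 * p15 - p1 * dd p15) * b + (dd p3 * p5 - p3 * dd p5) * a)
/-- an Eisenstein series times `a b` -/
noncomputable def W : CZ :=
  a * b + 3 * ((dd p1 * p15 + p1 * dd p15) * b - (dd p3 * p5 + p3 * dd p5) * a)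

lemma pr_tab : pr p1 = 1 - pr X - pr X ^ 2 + pr X ^ 5 + pr X ^ 7 ∧
    pr p3 = 1 - pr X ^ 3 - pr X ^ 6 ∧ pr p5 = 1 - pr X ^ 5 ∧ pr p15 = 1 ∧
    pr (dd p1) = -pr X - 2 * pr X ^ 2 + 5 * pr X ^ 5 + 7 * pr X ^ 7 ∧
    pr (dd p3) = -3 * pr X ^ 3 - 6 * pr X ^ 6 ∧ pr (dd p5) = -5 * pr X ^ 5 ∧ pr (dd p15) = 0 := by
  obtain ⟨h0, h1, h2, h3, h4, h5, h6, h7, h8, -⟩ := ec_table
  refine ⟨?_, ?_, ?_, ?_, ?_, ?_, ?_, ?_⟩ <;> rw [pr_eq] <;>
    simp only [Finset.sum_range_succ, Finset.sum_range_zero, dd, p1, p3, p5, p15, pd, coeff_th,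
      coeff_expand, P004H.H792.EP_coeff] <;>
    norm_num [h0, h1, h2, h3, h4, h5, h6, h7, h8] <;> ring

lemma cc {d : ℕ} (hd : d ≠ 0) : constantCoeff (pd d hd).1 = 1 := by
  rw [pd, constantCoeff_expand, ← coeff_zero_eq_constantCoeff_apply]
  exact ec_table.1

lemma ca : constantCoeff a.1 = 1 := by simp [a, p1, p15, cc]

lemma cb : constantCoeff b.1 = 1 := by simp [b, p3, p5, cc]

lemma a_ne (z : ℍ) : eZ z a ≠ 0 := by
  rw [a, map_mul]; exact mul_ne_zero (pd_ne _ z) (pd_ne _ z)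

lemma b_ne (z : ℍ) : eZ z b ≠ 0 := by
  rw [b, map_mul]; exact mul_ne_zero (pd_ne _ z) (pd_ne _ z)

lemma U_eq (z : ℍ) : U 2 (-1) (-1) 2 z * eZ z ((a * b) ^ 2) = eZ z ((x * a ^ 3) ^ 2) ∧
    U (-1) 2 2 (-1) z * eZ z ((a * b) ^ 2) = eZ z ((b ^ 3) ^ 2) := by
  have e : eZ z x = cexp (2 * π * I * z / 12) ^ 12 := by
    rw [eZ_x, qq, ← exp_nat_mul]
    congr 1
    push_cast
    ring
  have k0 := exp_ne_zero (2 * π * I * z / 12)
  have k1 := pd_ne one_ne_zero z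
  have k3 := pd_ne (d := 3) (by norm_num) z
  have k5 := pd_ne (d := 5) (by norm_num) z
  have k15 := pd_ne (d := 15) (by norm_num) z
  simp only [U, ee_pd one_ne_zero, ee_pd (d := 3) (by norm_num), ee_pd (d := 5) (by norm_num),
    ee_pd (d := 15) (by norm_num), a, b, p1, p3, p5, p15, map_mul, map_pow, e, zpow_neg,
    zpow_ofNat]
  constructor <;> field_simp

lemma Ei_eq (z : ℍ) : Ei (1 / 8) (1 / 8) (-1 / 8) (-1 / 8) z * eZ z (a * b) = eZ z Z ∧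
    Ei (1 / 8) (-1 / 8) (-1 / 8) (1 / 8) z * eZ z (a * b) = eZ z W := by
  have k1 := E2_pd one_ne_zero z
  have k3 := E2_pd (d := 3) (by norm_num) z
  have k5 := E2_pd (d := 5) (by norm_num) z
  have k15 := E2_pd (d := 15) (by norm_num) z
  simp only [Ei, Z, W, a, b, p1, p3, p5, p15, map_mul, map_add, map_sub, map_neg, map_ofNat]
  generalize eZ z (pd 1 _) = s1, eZ z (pd 3 _) = s3, eZ z (pd 5 _) = s5, eZ z (pd 15 _) = s15 at *
  push_cast at *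
  constructor
  · linear_combination (s3 * s5 * s15 * k1 + s1 * s5 * s15 * k3 - s1 * s3 * s15 * k5 -
      s1 * s3 * s5 * k15) / 8
  · linear_combination (s3 * s5 * s15 * k1 - s1 * s5 * s15 * k3 - s1 * s3 * s15 * k5 +
      s1 * s3 * s5 * k15) / 8

lemma pr_id : pr (-2 * (x * a ^ 3) ^ 2 + 2 * (b ^ 3) ^ 2 + Z * (a * b) : CZ) =
      pr (x * a ^ 3 * b ^ 3 : CZ) ∧
    pr ((W * (a * b)) ^ 2 : CZ) = pr (((b ^ 3) ^ 2) ^ 2 - 10 * (x * a ^ 3 * b ^ 3) * (b ^ 3) ^ 2 -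
      13 * (x * a ^ 3 * b ^ 3) ^ 2 + 10 * (x * a ^ 3 * b ^ 3) * (x * a ^ 3) ^ 2 +
      ((x * a ^ 3) ^ 2) ^ 2 : CZ) ∧
    pr (a * b : CZ) = pr (1 - X - X ^ 2 - X ^ 3 + X ^ 4 + X ^ 5 + C 3 * X ^ 7 + X ^ 8) := by
  obtain ⟨h1, h3, h5, h15, t1, t3, t5, t15⟩ := pr_tab
  have := trunc9 (y := pr X) (by
    rw [← map_pow, Ideal.Quotient.eq_zero_iff_mem]; exact Ideal.mem_span_singleton_self _)
    h1 h3 h5 t1 t3 t5
  simp only [Z, W, a, b, x]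
  push_cast
  simp only [map_mul, map_add, map_sub, map_neg, map_pow, h15, t15, mul_one, mul_zero,
    sub_zero, add_zero, map_one, map_ofNat]
  exact this

/-- the coefficients -/
noncomputable def an (n : ℕ) : ℤ := coeff n (x * a * b : CZ).1

lemma an_tab : an 0 = 0 ∧ an 1 = 1 ∧ an 3 = -1 ∧ an 5 = 1 ∧ an 9 = 1 := by
  have k := pr_id.2.2
  rw [Ideal.Quotient.eq, Ideal.mem_span_singleton, X_pow_dvd_iff] at k
  have e : ∀ n, an (n + 1) = coeff n (a * b : CZ).1 := fun n => by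
    rw [an, mul_assoc]
    exact coeff_succ_X_mul _ _
  have k0 := k 0 (by norm_num)
  have k2 := k 2 (by norm_num)
  have k4 := k 4 (by norm_num)
  have k8 := k 8 (by norm_num)
  rw [map_sub, sub_eq_zero, ← e] at k0 k2 k4 k8
  simp only [map_add, map_sub, coeff_X_pow, coeff_X, coeff_one, coeff_C_mul] at k0 k2 k4 k8
  exact ⟨by simp [an, x, mul_assoc], k0, k2, k4, k8⟩

/-- the form `η (z) η (3 z) η (5 z) η (15 z)` -/
noncomputable def f (z : ℍ) : ℂ := eZ z (x * a * b)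

lemma D_ne (z : ℍ) : eZ z ((a * b) ^ 2) ≠ 0 := by
  rw [map_pow, map_mul]
  exact pow_ne_zero _ (mul_ne_zero (a_ne z) (b_ne z))

lemma f_sq (z : ℍ) : U 2 (-1) (-1) 2 z * U (-1) 2 2 (-1) z = f z ^ 2 := by
  refine mul_right_cancel₀ (pow_ne_zero 2 (D_ne z)) ?_
  rw [sq (eZ z _), mul_mul_mul_comm, (U_eq z).1, (U_eq z).2, f]
  simp only [map_mul, map_pow]
  ring

lemma cD : constantCoeff (((a * b) ^ 2) ^ 2 : CZ).1 = 1 := by simp [ca, cb]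

lemma f_mf : IsMF (Gamma0 15) 2 f := by
  have h1 := ((u_mf.smul (-2)).add (v_mf.smul 2)).add
    (Ei_mf (k := 1 / 8) (l := 1 / 8) (m := -1 / 8) (n := -1 / 8) (by norm_num))
  set E := -2 * (x * a ^ 3) ^ 2 + 2 * (b ^ 3) ^ 2 + Z * (a * b) with hE
  have h2 : ∀ z : ℍ, (-2 * U 2 (-1) (-1) 2 z + 2 * U (-1) 2 2 (-1) z +
      Ei (1 / 8) (1 / 8) (-1 / 8) (-1 / 8) z) * eZ z ((a * b) ^ 2) = eZ z E := fun z => by
    rw [hE, map_add, map_add, map_mul, map_mul, map_mul _ Z, ← (U_eq z).1, ← (U_eq z).2,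
      ← (Ei_eq z).1, map_pow, map_neg, map_ofNat]
    ring
  have h3 := vanish ((h1.mul h1).sub (u_mf.mul v_mf) :) (E ^ 2 - (x * a ^ 3 * b ^ 3) ^ 2) _ cD
    (fun z => by
      simp only [Pi.sub_apply, Pi.mul_apply, Pi.add_apply, Pi.smul_apply, smul_eq_mul]
      rw [f_sq, map_sub, map_pow _ E, ← h2, f]
      simp only [map_mul, map_pow]
      ring) (by
      rw [← Ideal.mem_span_singleton, ← Ideal.Quotient.eq_zero_iff_mem]
      rw [AddSubgroupClass.coe_sub, SubmonoidClass.coe_pow, SubmonoidClass.coe_pow, map_sub,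
        map_pow, map_pow]
      exact sub_eq_zero.2 (congrArg (· ^ 2) pr_id.1))
  have h4 : E = x * a ^ 3 * b ^ 3 := by
    rcases sq_eq_sq_iff_eq_or_eq_neg.1 (sub_eq_zero.1 h3) with h | h
    · exact h
    · exfalso
      have k := pr_id.1
      rw [← hE, h, Ideal.Quotient.eq, Ideal.mem_span_singleton, X_pow_dvd_iff] at k
      have := k 1 (by norm_num)
      simp [x, mul_assoc, ca, cb, coeff_succ_X_mul] at this
  convert h1 using 1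
  funext z
  refine mul_right_cancel₀ (D_ne z) ?_
  simp only [Pi.add_apply, Pi.smul_apply, smul_eq_mul]
  rw [h2, h4, f]
  simp only [map_mul, map_pow]
  ring

/-- **the quartic equation** -/
lemma quart : (W * (a * b)) ^ 2 = ((b ^ 3) ^ 2) ^ 2 - 10 * (x * a ^ 3 * b ^ 3) * (b ^ 3) ^ 2 -
    13 * (x * a ^ 3 * b ^ 3) ^ 2 + 10 * (x * a ^ 3 * b ^ 3) * (x * a ^ 3) ^ 2 +
    ((x * a ^ 3) ^ 2) ^ 2 := by
  have h1 := Ei_mf (k := 1 / 8) (l := -1 / 8) (m := -1 / 8) (n := 1 / 8) (by norm_num)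
  refine sub_eq_zero.1 (vanish ((h1.mul h1).sub (((((v_mf.mul v_mf).sub
    ((f_mf.mul v_mf).smul 10)).sub ((f_mf.mul f_mf).smul 13)).add ((f_mf.mul u_mf).smul 10)).add
    (u_mf.mul u_mf)) :) _ _ cD (fun z => ?_) ?_)
  · have e : eZ z (x * a ^ 3 * b ^ 3) = f z * eZ z ((a * b) ^ 2) := by
      simp only [f, map_mul, map_pow]
      ring
    simp only [Pi.sub_apply, Pi.mul_apply, Pi.add_apply, Pi.smul_apply, smul_eq_mul]
    rw [map_sub, map_add, map_add, map_sub, map_sub, map_pow _ (W * _), map_mul _ W, ← (Ei_eq z).2,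
      map_pow _ ((b ^ 3) ^ 2), map_pow _ ((x * a ^ 3) ^ 2), map_mul _ (10 * _), map_mul _ (10 * _),
      map_mul _ 10, map_mul _ 13, map_pow _ (x * a ^ 3 * b ^ 3), e, ← (U_eq z).1, ← (U_eq z).2]
    simp only [map_pow, map_ofNat]
    ring
  · rw [← Ideal.mem_span_singleton, ← Ideal.Quotient.eq_zero_iff_mem, AddSubgroupClass.coe_sub,
      map_sub]
    exact sub_eq_zero.2 pr_id.2.1

end Vale.Agent.N017
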