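import Vale.Agent.N017.Fld
import Vale.Agent.N004.Defs
import Vale.Agent.P014T.Ht.Sh

/-!
# P017: the Mordell-Weil group of `X₀(15)` over a quadratic field and the quadratic twist
-/

open NumberField WeierstrassCurve WeierstrassCurve.Affine
open scoped Classical

namespace Vale.Agent.N017

open P014T.Vc
open N004 (twist)
open P017.H185 (ED finite_EQ' some_congr)

lemma alg {A B G : Type} [AddCommGroup A] [AddCommGroup B] [AddCommGroup G] [Finite A]
    (s : G →+ G) (α : A →+ G) (β : B →+ G) (hβ : Function.Injective β) (hs : ∀ P, s (s P) = P)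
    (h1 : ∀ P, s P = P → ∃ a, α a = P) (h2 : ∀ P, s P = -P → ∃ b, β b = P) :
    Module.rank ℤ G = Module.rank ℤ B ∧ (Finite B → Finite G) := by
  set t : G →ₗ[ℤ] G := (AddMonoidHom.id G - s).toIntLinearMap with ht
  have e : ∀ P, t P = P - s P := fun _ => rfl
  have k1 : Finite (LinearMap.ker t) := ((Set.finite_range α).subset fun P h =>
    h1 P (sub_eq_zero.1 ((e P).symm.trans h)).symm :)
  have k2 : LinearMap.range t ≤ LinearMap.range β.toIntLinearMap := by
    rintro _ ⟨P, rfl⟩
    exact h2 _ (by rw [e, map_sub, hs, neg_sub])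
  refine ⟨le_antisymm ?_ (β.toIntLinearMap.rank_le_of_injective hβ), fun _ => ?_⟩
  · rw [← t.rank_range_add_rank_ker, (Module.rank_eq_zero_iff_isTorsion
      (M := LinearMap.ker t)).2 (isAddTorsion_iff_isTorsion_int.1 isAddTorsion_of_finite), add_zero]
    exact (Submodule.rank_mono k2).trans (rank_range_le _)
  · have : Finite (LinearMap.range t) := ((Set.finite_range β).subset k2 :)
    have := Finite.of_equiv _ t.quotKerEquivRange.toEquiv.symm
    have : Finite (G ⧸ (LinearMap.ker t).toAddSubgroup) := this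
    have : Finite (LinearMap.ker t).toAddSubgroup := k1
    exact Finite.of_addSubgroup_quotient (LinearMap.ker t).toAddSubgroup

theorem rank_K {K : Type} [Field K] [NumberField K] {D : ℤ} (h : IsImQuad K D) :
    Module.rank ℤ (X015.baseChange K).toAffine.Point =
      Module.rank ℤ (twist (-12987) (-263466) D).toAffine.Point ∧
    (Finite (twist (-12987) (-263466) D).toAffine.Point →
      Finite (X015.baseChange K).toAffine.Point) := by
  obtain ⟨-, h0, θ, σ, h1, h2, h3, h4⟩ := data h
  have d0 : (D : K) ≠ 0 := by exact_mod_cast h0.ne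
  have t0 : θ ≠ 0 := fun e => d0 (by rw [← h1, e]; simp)
  have cs : Ch ((X015.baseChange K).map σ) (X015.baseChange K) 1 0 0 0 := by
    refine ⟨one_ne_zero, ?_, ?_, ?_, ?_, ?_⟩ <;> simp [X015, WeierstrassCurve.baseChange, map_ofNat]
  have ca : Ch ((ED (-1)).map (algebraMap ℚ K)) (X015.baseChange K) (1 / 2) 3 (-1 / 2) (-2) := by
    refine ⟨by norm_num, ?_, ?_, ?_, ?_, ?_⟩ <;> simp [X015, ED, WeierstrassCurve.baseChange, map_ofNat] <;> norm_num
  have cb : Ch ((twist (-12987) (-263466) D).map (algebraMap ℚ K)) (X015.baseChange K)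
      (1 / (6 * θ)) (-5 / 12) (-1 / 2) (-7 / 24) := by
    refine ⟨by simp [t0], ?_, ?_, ?_, ?_, ?_⟩ <;> simp [X015, twist, WeierstrassCurve.baseChange, ← h1] <;>
      field_simp <;> norm_num
  have := finite_EQ'
  have es : ∀ x y n, ∃ n', vm σ cs (.some x y n) = .some (σ x) (σ y) n' := fun x y n =>
    ⟨(cs.ns.2 n).imp (by simp) (by simp), some_congr (by simp) (by simp)⟩
  refine alg (vm σ cs) (vm _ ca) (vm _ cb) (vm_inj cb) ?_ ?_ ?_
  · rintro (_ | ⟨x, y, n⟩)
    · rfl
    · obtain ⟨n1, e1⟩ := es x y n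
      obtain ⟨n2, e2⟩ := es _ _ n1
      rw [e1, e2]
      exact some_congr (h3 x) (h3 y)
  · rintro (_ | ⟨x, y, n⟩) e
    · exact ⟨0, rfl⟩
    · obtain ⟨n1, e1⟩ := es x y n
      obtain ⟨k1, k2⟩ := Point.some.inj (e1.symm.trans e)
      obtain ⟨a, rfl⟩ := h4 x k1
      obtain ⟨b, rfl⟩ := h4 y k2
      exact ⟨_, (vm_ex ca n (x := 4 * a - 12) (y := 8 * b + 4 * a + 4) (by simp; ring)
        (by simp; ring)).choose_spec⟩
  · rintro (_ | ⟨x, y, n⟩) e
    · exact ⟨0, rfl⟩
    · obtain ⟨n1, e1⟩ := es x y n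
      rw [e1, Point.neg_some] at e
      obtain ⟨k1, k2⟩ := Point.some.inj e
      have k3 : σ y = -y - x - 1 := by simpa [X015, WeierstrassCurve.baseChange, negY] using k2
      obtain ⟨b, hb⟩ := h4 (θ * (2 * y + x + 1)) (by
        simp only [map_mul, map_add, map_ofNat, map_one, h2, k1, k3]
        ring)
      obtain ⟨a, rfl⟩ := h4 x k1
      refine ⟨_, (vm_ex cb n (x := 36 * D * a + 15 * D) (y := 108 * D * b) ?_ ?_).choose_spec⟩
      · simp [← h1]
        field_simp
        ring
      · simp [← h1, ← hb]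
        field_simp
        ring

end Vale.Agent.N017
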