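import Vale.Agent.N017.Par
import Vale.Agent.N017.Den
import Vale.Agent.N017.Rk

/-!
# P017: the rank of `X₀(15)` over imaginary quadratic fields, on average
-/

open Filter Topology
open scoped Classical

namespace Vale.Agent.N017

open _root_.P004 (Fam)
open Vale.Agent.P004H.H871 (Fd)
open N004 (IsAnRank twist cnt gzk fam_ne cnt_or cnt_congr)

lemma rank_of {D : ℤ} (hD : D ≠ 0) {r : ℕ} (h : IsAnRank (twist (-12987) (-263466) D) r)
    (h1 : r ≤ 1) : RankIs r D ∧ (r = 0 → IsFin D) := by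
  have k := gzk el15 hD h1 h
  refine ⟨fun K _ _ hK => (rank_K hK).1.trans k, fun e K _ _ hK => (rank_K hK).2 ?_⟩
  have : (twist (-12987) (-263466) D).IsElliptic := ⟨isUnit_iff_ne_zero.2 (by
    have e : (twist (-12987) (-263466) D).Δ = 6 ^ 12 * 15 ^ 4 * D ^ 6 := by
      simp [twist, WeierstrassCurve.Δ, WeierstrassCurve.b₂, WeierstrassCurve.b₄,
        WeierstrassCurve.b₆, WeierstrassCurve.b₈]
      ring
    rw [e]
    positivity)⟩
  have := P014T.Sm.finite (twist (-12987) (-263466) D)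
  rw [e, Nat.cast_zero] at k
  exact Module.finite_of_fg_torsion _ (Module.rank_eq_zero_iff_isTorsion.1 k)

lemma rank_uniq {D : ℤ} (hD : IsDisc D) {i j : ℕ} (h : RankIs i D) (h' : RankIs j D) : i = j := by
  obtain ⟨K, _, _, hK⟩ := hD
  exact_mod_cast (h K hK).symm.trans (h' K hK)

lemma rank_fin {D : ℤ} (h : IsFin D) : RankIs 0 D := fun K _ _ hK => by
  have := h K hK
  exact Module.rank_eq_zero_iff_isTorsion.2 (isAddTorsion_iff_isTorsion_int.1 isAddTorsion_of_finite)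

theorem main :
    (Proportion (fun _ => True) IsFin (25 / 48) ∧ Proportion (fun _ => True) (RankIs 0) (25 / 48) ∧
      Proportion (fun _ => True) (RankIs 1) (23 / 48)) ∧
    (∀ (m : ℕ) (c : ℤ), 0 < m →
      ((∃ D, IsDisc D ∧ D ≡ c [ZMOD m] ∧ Good D) →
        Proportion (fun D => D ≡ c [ZMOD m] ∧ Good D) IsFin 1) ∧
      ((∃ D, IsDisc D ∧ D ≡ c [ZMOD m] ∧ ¬ Good D) →
        Proportion (fun D => D ≡ c [ZMOD m] ∧ ¬ Good D) (RankIs 1) 1)) ∧
    ∀ D, IsDisc D → ∃ r : ℕ, IsAnRank (twist (-12987) (-263466) D) r ∧ (Even r ↔ Good D) ∧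
      (r ≤ 1 → RankIs r D) := by
  obtain ⟨r, h1, h2, h3, h4⟩ := base15
  have a : ∀ D, Fd D → D < 0 → r D ≤ 1 →
      (IsFin D ↔ Good D) ∧ (RankIs 0 D ↔ Good D) ∧ (RankIs 1 D ↔ ¬ Good D) := fun D hD h0 k => by
    obtain ⟨k1, k2⟩ := rank_of hD.ne (h1 D hD) k
    have u := fun j => rank_uniq (j := j) ((isDisc_iff D).2 ⟨hD, h0⟩) k1
    have e : Good D ↔ r D = 0 := by rw [← h4 D hD h0, Nat.even_iff]; omega
    rw [e]
    exact ⟨⟨fun h => u 0 (rank_fin h), k2⟩, ⟨u 0, fun h => h ▸ k1⟩,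
      fun h => (u 1 h).trans_ne one_ne_zero, fun h => (by omega : r D = 1) ▸ k1⟩
  refine ⟨?_, fun m c hm => ?_, fun D hD => ?_⟩
  · obtain ⟨u, hu, k1, k2⟩ := dens_good
    have k3 : Tendsto (fun X : ℕ => cnt (fun D => D < 0 ∧ ¬ Good D) X / (Fam X).card) atTop
        (𝓝 (23 / 48 * u)) := by
      rw [show 23 / 48 * u = u - 25 / 48 * u by ring]
      refine (k1.sub k2).congr fun X => ?_
      rw [cnt_or (P₁ := fun D => D < 0 ∧ Good D) (P₂ := fun D => D < 0 ∧ ¬ Good D)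
        (fun D _ => by tauto) fun D h k => k.2 h.2]
      ring
    rw [← mul_div_cancel_right₀ (25 / 48) hu.ne', ← mul_div_cancel_right₀ (23 / 48) hu.ne']
    exact ⟨prop_of isDisc_iff h2 h3 hu.ne' k1 k2 fun D h h0 k => by rw [true_and, (a D h h0 k).1],
      prop_of isDisc_iff h2 h3 hu.ne' k1 k2 fun D h h0 k => by rw [true_and, (a D h h0 k).2.1],
      prop_of isDisc_iff h2 h3 hu.ne' k1 k3 fun D h h0 k => by rw [true_and, (a D h h0 k).2.2]⟩
  · have p : ∀ D D', D ≡ D' [ZMOD (m * 15 : ℕ)] → D ≡ D' [ZMOD m] ∧ (Good D ↔ Good D') :=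
      fun D D' h => by
        push_cast at h
        have := h.of_mul_left _
        unfold Good Int.ModEq at *
        exact ⟨Int.ModEq.of_mul_right _ h, by omega⟩
    have m0 : m * 15 ≠ 0 := by omega
    constructor <;> rintro ⟨D, h, k⟩
    · obtain ⟨u, hu, k1⟩ := dens_neg m0 (P := fun D => D ≡ c [ZMOD m] ∧ Good D) (fun D D' e k =>
        ⟨(p D D' e).1.symm.trans k.1, (p D D' e).2.1 k.2⟩) ⟨D, ((isDisc_iff D).1 h).1, k⟩
      rw [← div_self hu.ne']
      exact prop_of isDisc_iff h2 h3 hu.ne' k1 k1 fun D h h0 k => by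
        rw [(a D h h0 k).1, and_assoc, and_self]
    · obtain ⟨u, hu, k1⟩ := dens_neg m0 (P := fun D => D ≡ c [ZMOD m] ∧ ¬ Good D) (fun D D' e k =>
        ⟨(p D D' e).1.symm.trans k.1, mt (p D D' e).2.2 k.2⟩) ⟨D, ((isDisc_iff D).1 h).1, k⟩
      rw [← div_self hu.ne']
      exact prop_of isDisc_iff h2 h3 hu.ne' k1 k1 fun D h h0 k => by
        rw [(a D h h0 k).2.2, and_assoc, and_self]
  · obtain ⟨h, h0⟩ := (isDisc_iff D).1 hD
    exact ⟨r D, h1 D h, h4 D h h0, fun k => (rank_of h.ne (h1 D h) k).1⟩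

end Vale.Agent.N017
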