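import Vale.Agent.N017.Idn
import Vale.Agent.P004Z.EF.All
import Vale.Agent.P004N.H461.Pure

/-!
# P017: the newform of level 15
-/

open UpperHalfPlane hiding I
open Complex Filter Topology Asymptotics CongruenceSubgroup
open scoped Real MatrixGroups ModularForm Manifold

namespace Vale.Agent.N017

open P004H.H204 (qq)
open P022.H218.L3 (IsMF Hol)
open P004N (S2 QE EF NF ALw)

lemma f_ne (z : ℍ) : f z ≠ 0 := by
  rw [f, map_mul, map_mul, eZ_x]
  exact mul_ne_zero (mul_ne_zero (exp_ne_zero _) (a_ne z)) (b_ne z)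

lemma f_lim (γ : SL(2, ℤ)) : ∃ κ : ℝ, 0 < κ ∧ Tendsto (fun z : ℍ =>
    ‖(f ∣[(2 : ℤ)] γ) z‖ * Real.exp (2 * π * (gg 15 γ / 15) * z.im)) atImInfty (𝓝 κ) := by
  obtain ⟨κ, h0, h⟩ := U_lim 1 1 1 1 γ
  have e : (fun τ : ℍ => U 1 1 1 1 τ) = f * f := funext fun z => by
    have k1 := ee_ne one_ne_zero z.2
    have k3 := ee_ne (d := 3) (by norm_num) z.2
    have k5 := ee_ne (d := 5) (by norm_num) z.2
    have k15 := ee_ne (d := 15) (by norm_num) z.2
    rw [Pi.mul_apply, ← sq, ← f_sq]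
    simp only [U, zpow_neg, zpow_ofNat]
    field_simp
  have e2 : od 1 1 1 1 γ = 24 * (gg 15 γ / 15) := by
    obtain ⟨e1, e2, e3 | e3, e5 | e5⟩ := gg_cases γ <;> rw [od, e1, e2, e3, e5] <;> norm_num
  rw [e, show (1 + 1 + 1 + 1 : ℤ) = 2 + 2 from rfl, ModularForm.mul_slash_SL2, e2] at h
  refine ⟨√κ, Real.sqrt_pos.2 h0, h.sqrt.congr fun z => ?_⟩
  rw [Real.sqrt_eq_iff_mul_self_eq (by positivity) (by positivity), mul_mul_mul_comm,
    ← Real.exp_add, Pi.mul_apply, norm_mul]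
  congr 2
  ring

lemma f_s2 : S2 15 f := ⟨f_mf.hol, f_mf.slash, fun γ => by
  obtain ⟨κ, -, h⟩ := f_lim γ
  have := rpos (d := 15) (by norm_num) γ
  have h1 : Tendsto (fun z : ℍ => Real.exp (-(2 * π * (gg 15 γ / 15) * z.im))) atImInfty (𝓝 0) :=
    Real.tendsto_exp_neg_atTop_nhds_zero.comp (tendsto_comap.const_mul_atTop (by positivity))
  have h2 := h.mul h1
  rw [mul_zero] at h2
  refine tendsto_zero_iff_norm_tendsto_zero.2 (h2.congr fun z => ?_)
  rw [mul_assoc, ← Real.exp_add, add_neg_cancel, Real.exp_zero, mul_one]⟩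

lemma inv_O (γ : SL(2, ℤ)) : (fun z => ((f ∣[(2 : ℤ)] γ) z)⁻¹) =O[atImInfty]
    fun z => Real.exp (2 * π * (gg 15 γ / 15) * z.im) := by
  obtain ⟨κ, h0, h⟩ := f_lim γ
  have := ((h.inv₀ h0.ne').isBigO_one ℝ).mul (isBigO_refl
    (fun z : ℍ => Real.exp (2 * π * (gg 15 γ / 15) * z.im)) atImInfty)
  simp only [one_mul] at this
  refine IsBigO.of_norm_left (this.congr_left fun z => ?_)
  rw [norm_inv, mul_inv, inv_mul_cancel_right₀ (Real.exp_pos _).ne']

lemma decay {g : ℍ → ℂ} (hg : S2 15 g) (γ : SL(2, ℤ)) : (g ∣[(2 : ℤ)] γ) =O[atImInfty]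
    fun z => Real.exp (-(2 * π * (gg 15 γ / 15) * z.im)) := by
  obtain ⟨w, hw⟩ : gg 15 γ ∣ 15 := Nat.gcd_dvd_right _ _
  obtain ⟨c, hc⟩ : (gg 15 γ : ℤ) ∣ γ 1 0 := Int.natCast_dvd.2 (Nat.gcd_dvd_left _ _)
  have w0 : (0 : ℝ) < w := Nat.cast_pos.2 (Nat.pos_of_ne_zero (by rintro rfl; omega))
  have h1 : γ * ModularGroup.T ^ (w : ℤ) * γ⁻¹ ∈ Gamma0 15 := by
    have h : ((γ * ModularGroup.T ^ (w : ℤ) * γ⁻¹ : SL(2, ℤ)) 1 0 : ℤ) = -(w * (γ 1 0) ^ 2) := by
      simp only [Matrix.SpecialLinearGroup.coe_mul, ModularGroup.coe_T_zpow,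
        Matrix.SpecialLinearGroup.coe_inv, Matrix.adjugate_fin_two, Matrix.mul_apply,
        Fin.sum_univ_two]
      simp
      ring
    have k := congrArg (Nat.cast : ℕ → ℤ) hw
    rw [Gamma0_mem, h, ZMod.intCast_zmod_eq_zero_iff_dvd]
    exact ⟨-(c * γ 1 0), by rw [k]; push_cast; linear_combination -(w * γ 1 0) * hc⟩
  have h2 : ∀ z : ℍ, (g ∣[(2 : ℤ)] γ) ((w : ℝ) +ᵥ z) = (g ∣[(2 : ℤ)] γ) z := fun z => by
    have := P004N.T3.slash_T_apply (g ∣[(2 : ℤ)] γ) w z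
    rw [← SlashAction.slash_mul, show γ * ModularGroup.T ^ (w : ℤ) =
      γ * ModularGroup.T ^ (w : ℤ) * γ⁻¹ * γ by group, SlashAction.slash_mul, hg.slash _ h1] at this
    exact_mod_cast this.symm
  have h3 := (hg.zero γ).exp_decay_atImInfty w0 (fun s => by
    by_cases hs : 0 < s.im
    · have k : 0 < (s + ((w : ℝ) : ℂ)).im := by simpa using hs
      simp only [Function.comp_apply, ofComplex_apply_of_im_pos k, ofComplex_apply_of_im_pos hs]
      rw [← h2 ⟨s, hs⟩]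
      exact congrArg _ (UpperHalfPlane.ext (add_comm _ _))
    · have k : (s + ((w : ℝ) : ℂ)).im ≤ 0 := by simpa using hs
      simp only [Function.comp_apply, ofComplex_apply_of_im_nonpos k,
        ofComplex_apply_of_im_nonpos (not_lt.1 hs)])
    (P004N.T3.mdiff_slash hg γ) (P004N.T3.bdd_slash hg γ)
  refine h3.congr_right fun z => congrArg _ ?_
  have k := congrArg (Nat.cast : ℕ → ℝ) hw
  have := rpos (d := 15) (by norm_num) γ
  push_cast at k
  rw [k]
  field_simp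

lemma qe_O {g : ℍ → ℂ} {c : ℕ → ℂ} (h : QE g c) (τ : ℍ) :
    HasSum (fun n => c n * (Function.Periodic.qParam 1 τ) ^ n) (g τ) := by
  simpa only [smul_eq_mul] using (P004N.H461.QE_iff' _ _).1 h τ

/-- **dimension one** -/
lemma dim0 {g : ℍ → ℂ} {c : ℕ → ℂ} (hg : S2 15 g) (h : QE g c) (h0 : c 0 = 0) (h1 : c 1 = 0) :
    g = 0 := by
  have e : ∀ (γ : SL(2, ℤ)) (z : ℍ), ((g / f) ∣[(0 : ℤ)] γ) z =
      (g ∣[(2 : ℤ)] γ) z * ((f ∣[(2 : ℤ)] γ) z)⁻¹ := fun γ z => by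
    have := denom_ne_zero γ z
    have := f_ne (γ • z)
    simp only [ModularForm.SL_slash_apply, Pi.div_apply, neg_zero, zpow_zero]
    field_simp
  have k : IsMF (Gamma0 15) 0 (g / f) := by
    refine ⟨hg.holo.div f_mf.hol f_ne, fun γ hγ => funext fun z => ?_, fun γ => ?_⟩
    · rw [e, hg.slash γ hγ, f_mf.slash γ hγ, Pi.div_apply, div_eq_mul_inv]
    · refine ((decay hg γ).mul (inv_O γ)).congr (fun z => (e γ z).symm) fun z => ?_
      rw [← Real.exp_add, neg_add_cancel, Real.exp_zero, Pi.one_apply]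
  have k1 := (P022.H29.L3.isBigO_of_hasSum one_pos (qe_O h) (m := 2) fun n hn => by
    interval_cases n <;> assumption).mul (inv_O 1)
  have k2 := P022.H29.L3.eq_zero_of_growth k {1} (by simp) (c := 1) (fun y hy => by
    rw [Finset.mem_singleton.1 hy, inv_one, SlashAction.slash_one]
    refine k1.congr (fun z => by rw [SlashAction.slash_one, Pi.div_apply, div_eq_mul_inv])
      fun z => ?_
    rw [← Real.exp_add, show gg 15 1 = 15 from rfl]
    congr 1
    push_cast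
    ring) (by simp)
  funext z
  simpa [f_ne z] using congrFun k2 z

lemma f_qe : QE f fun n => (an n : ℂ) := fun z => (eZ_sum _ z).congr_fun' fun n => by
  rw [qq, ← exp_nat_mul]
  congr 2
  ring

lemma dim1 {g : ℍ → ℂ} {c : ℕ → ℂ} (hg : S2 15 g) (h : QE g c) (h0 : c 0 = 0) :
    g = c 1 • f ∧ ∀ n, c n = c 1 * an n := by
  have k := P004N.H461.QE.sub h (P004N.H461.QE.smul f_qe (c 1))
  have e := dim0 (g := g - c 1 • f) ⟨hg.holo.sub (f_s2.holo.const_smul _), fun γ hγ => by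
      rw [sub_eq_add_neg, ← _root_.neg_smul, SlashAction.add_slash, ModularForm.SL_smul_slash,
        hg.slash γ hγ, f_s2.slash γ hγ], fun γ => by
      rw [sub_eq_add_neg, ← _root_.neg_smul, SlashAction.add_slash, ModularForm.SL_smul_slash]
      exact (hg.zero γ).add ((f_s2.zero γ).smul _)⟩ k
    (by simp [h0, an_tab.1]) (by simp [an_tab.2.1])
  rw [e] at k
  exact ⟨sub_eq_zero.1 e, fun n => sub_eq_zero.1 (P004N.H461.QE.zero_eq k n)⟩

lemma f_ef : EF 15 f an := ⟨by norm_num, f_s2, f_qe, an_tab.2.1, fun p hp h n => by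
  obtain ⟨G, h1, h2⟩ := P004N.H461.pfTp 15 p f _ (by norm_num) hp h f_s2 f_qe
  have := (dim1 h1 h2 (by simp [an_tab.1])).2 n
  rwa [if_neg (hp.one_lt.ne' <| Nat.dvd_one.1 ·), mul_one, add_zero] at this⟩

/-- **the newform and its Atkin-Lehner eigenvalues** -/
theorem f_nf : (∃ ε, NF 15 f (fun n => (an n : ℝ)) ε) ∧ ALw 15 1 f 1 ∧ ALw 15 3 f 1 ∧
    ALw 15 5 f (-1) ∧ ALw 15 15 f (-1) := by
  obtain ⟨M, g, c, ε, h1, h2, -, h3⟩ := P004Z.EF.new 15 f an f_ef
  obtain ⟨a0, a1, a3, a5, a9⟩ := an_tab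
  have c1 : ((c 1 : ℝ) : ℂ) = 1 := by exact_mod_cast h1.one
  obtain ⟨e1, e2⟩ := dim1 (P004N.H461.S2.mono h2 h1.s2) h1.qe (by exact_mod_cast h1.zero)
  simp only [c1, one_mul, one_smul] at e1 e2
  obtain rfl : c = an := funext fun n => by exact_mod_cast e2 n
  subst e1
  have m3 : 3 ∣ M := by_contra fun k => by
    have := h1.good 3 Nat.prime_three k 3
    norm_num [a1, a3, a9] at this
  have m5 : 5 ∣ M := by_contra fun k => by
    have k1 : M ∣ 3 := ((Nat.prime_five.coprime_iff_not_dvd.2 k).symm.dvd_mul_right).1 h2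
    have k2 := P004N.H461.S2.mono k1 h1.s2
    have : Fact (Nat.Prime 3) := ⟨Nat.prime_three⟩
    have k3 := P022.H218.L3.index_le_of_sep (Gamma0 3) (P022.H218.L3.pl 3)
      fun s t h => Gamma0_mem.2 (P022.H218.L3.pl_sep 3 s t h)
    have k4 : (Gamma0 3).index ≤ 4 := by simpa [Nat.card_eq_fintype_card] using k3
    exact f_ne UpperHalfPlane.I (congrFun (P022.H29.L3.sturm ⟨k2.holo, k2.slash,
      fun γ => (k2.zero γ).isBoundedAtImInfty⟩ (qe_O f_qe) (m := 1)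
      (fun n hn => by rw [Nat.lt_one_iff.1 hn, a0, Int.cast_zero]) (by omega)) _)
  obtain rfl : M = 15 := Nat.dvd_antisymm h2
    (Nat.Coprime.mul_dvd_of_dvd_of_dvd (show Nat.Coprime 3 5 by norm_num) m3 m5)
  have w3 := h3 3 Nat.prime_three m3 (by norm_num)
  have w5 := h3 5 Nat.prime_five m5 (by norm_num)
  have w := (P004N.H461.alw_prod (by norm_num) f_s2 (fun p => -(an p : ℝ)) {3, 5} (by
    simp only [Finset.mem_insert, Finset.mem_singleton]
    rintro p (rfl | rfl)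
    exacts [⟨Nat.prime_three, m3, by norm_num, w3⟩, ⟨Nat.prime_five, m5, by norm_num, w5⟩])).2.2
  rw [Finset.prod_pair (by norm_num), Finset.prod_pair (by norm_num)] at w
  simp only [a3, a5] at w w3 w5
  norm_num at w w3 w5
  exact ⟨⟨ε, h1⟩, P004N.H461.alw_one f_s2, w3, w5, w⟩

end Vale.Agent.N017
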