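import Vale.Agent.N017.Defs
import Vale.Agent.N017.Att
import Vale.Agent.N004.Main

/-!
# P017: the parity of the analytic rank of the quadratic twists of `X₀(15)`
-/

open scoped NumberTheorySymbols

namespace Vale.Agent.N017

open P004N (LDr FEr ALw)
open P004N.T8 (Cont Dens LDe inc kr_abs_le)
open P004H.H871 (kr Fd kr_odd kr_mul kr_one kr_pm kr_zero kr_four kr_eight kr_eight' odd_natAbs)
open N004 (IsAnRank twist)

lemma kr_m1 {D : ℤ} (h : Fd D) (h0 : D < 0) : kr D (-1) = -1 := by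
  have k : ∀ d : ℤ, d < 0 → (d % 4 = 1 → J(-1 | d.natAbs) = -1) ∧
      (d % 4 = 3 → J(-1 | d.natAbs) = 1) := fun d hd => ⟨fun e => by
    rw [jacobiSym.at_neg_one (odd_natAbs (by omega)), ZMod.χ₄_nat_three_mod_four (by omega)],
    fun e => by
    rw [jacobiSym.at_neg_one (odd_natAbs (by omega)), ZMod.χ₄_nat_one_mod_four (by omega)]⟩
  rcases h.cases with ⟨e, -⟩ | ⟨d, rfl, e, -⟩ | ⟨d, rfl, e, -⟩ | ⟨d, rfl, e, -⟩
  · rw [P004H.H871.kr_one_mod e]
    exact (k D h0).1 e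
  · rw [kr_four e]
    beta_reduce
    rw [(k d (by omega)).2 e]
    decide
  · rw [kr_eight e]
    beta_reduce
    rw [(k d (by omega)).1 e]
    decide
  · rw [kr_eight' e]
    beta_reduce
    rw [(k d (by omega)).2 e]
    decide

lemma lde_tw {η : ℝ} {A : ℕ → ℝ} (h : LDe η A) {D : ℤ} (hD : Fd D) :
    LDe η fun k => A k * kr D k := by
  have ab : ∀ p : ℕ, |A p * kr D p| ≤ |A p| := fun p => by
    rw [abs_mul]
    exact mul_le_of_le_one_right (abs_nonneg _) (kr_abs_le hD _)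
  have sc : ∀ p k : ℕ, (kr D (p ^ (k + 1) : ℕ) : ℝ) = kr D p * kr D (p ^ k : ℕ) := fun p k => by
    rw [pow_succ', Nat.cast_mul, kr_mul hD, Int.cast_mul]
  refine ⟨h.1, ⟨by rw [h.2.1.zero, zero_mul], by rw [h.2.1.one, Nat.cast_one, kr_one hD]; simp,
    fun m n k => by rw [h.2.1.mul m n k, Nat.cast_mul, kr_mul hD]; push_cast; ring,
    fun p hp => ?_⟩, fun p hp => (ab p).trans (h.2.2 p hp)⟩
  by_cases c : IsCoprime D p
  · rcases h.2.1.loc p hp with ⟨k1, k2⟩ | ⟨k1, k2⟩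
    · refine .inl ⟨fun k => ?_, (ab p).trans k2⟩
      have : (kr D p : ℝ) * kr D p = 1 := by rcases kr_pm hD c with e | e <;> simp [e]
      rw [k1, sc, sc]
      linear_combination -(p * A (p ^ k) * kr D (p ^ k : ℕ)) * this
    · refine .inr ⟨fun k => ?_, (ab p).trans k2⟩
      rw [k1, sc]
      ring
  · refine .inr ⟨fun k => ?_, ?_⟩
    · rw [sc, kr_zero hD c]
      simp
    · simp [kr_zero hD c]

lemma par_fe {r : ℤ → ℕ} (hr : Cont an r) {D : ℤ} (hD : Fd D) {q κ : ℝ}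
    (h : FEr (fun k => (an k : ℝ) * kr D k) q κ) : κ = 1 ↔ Even (r D) := by
  obtain ⟨⟨ε, nf⟩, -⟩ := f_nf
  obtain ⟨η, h1⟩ := P004N.T8.nf_lde nf
  have h2 := lde_tw h1 hD
  obtain ⟨L, hL⟩ := P004N.T8.stEnt_of P004N.T8.libL.ent η _ q κ h2 h
  obtain ⟨M, g, c, ε', hT, -⟩ := P004N.exists_isTw f_ef hD
  obtain ⟨L', k1, -, -, k2⟩ := hr D hD M g c ε' hT
  have B0 : 15 * D.natAbs ≠ 0 := mul_ne_zero (by norm_num) (Int.natAbs_ne_zero.2 hD.ne)
  obtain ⟨L₁, k3, k4⟩ := P004N.T8.remove_all h2.2.1 (P004N.H503.Sum.sm_of_ldr h2.2.1) B0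
    (fun p hp _ => (h2.2.2 p hp).trans_lt (sub_lt_self _ h2.1)) hL
  obtain ⟨L₂, k5, k6⟩ := P004N.T8.remove_all hT.1.ldr (P004N.H503.Sum.sm_of_ldr hT.1.ldr) B0
    (fun p hp _ => hT.1.lt hp) k1
  have e : inc (15 * D.natAbs) c = inc (15 * D.natAbs) fun k => (an k : ℝ) * kr D k :=
    funext fun n => if_congr Iff.rfl rfl rfl |>.trans (by
      split_ifs with k
      exacts [((hT.eq f_ef hD).2.2 n k).trans (if_pos k).symm, (if_neg k).symm])
  rw [e] at k5
  rw [P004N.T8.stPari_of P004N.T8.libL.par η _ q κ L h2 h hL, analyticOrderNatAt, ← k4,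
    P004N.T8.isLr_unique k3 k5, k6, k2, ENat.toNat_natCast]

lemma j3 (D : ℤ) : J(D | 3) = if D % 3 = 1 then 1 else if D % 3 = 2 then -1 else 0 := by
  rw [jacobiSym.mod_left]
  have : D % 3 = 0 ∨ D % 3 = 1 ∨ D % 3 = 2 := by omega
  rcases this with e | e | e <;> simp only [Nat.cast_ofNat, e] <;> norm_num

lemma j5 (D : ℤ) : J(D | 5) = if D % 5 = 1 ∨ D % 5 = 4 then 1 else
    if D % 5 = 0 then 0 else -1 := by
  rw [jacobiSym.mod_left]
  have : D % 5 = 0 ∨ D % 5 = 1 ∨ D % 5 = 2 ∨ D % 5 = 3 ∨ D % 5 = 4 := by omega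
  rcases this with e | e | e | e | e <;> simp only [Nat.cast_ofNat, e] <;> norm_num

/-- **the root number** -/
theorem par15 {r : ℤ → ℕ} (hr : Cont an r) {D : ℤ} (hD : Fd D) (h0 : D < 0) :
    Even (r D) ↔ Good D := by
  obtain ⟨-, w1, w3, w5, w15⟩ := f_nf
  have q : P004N.QE f fun n => (((an n : ℤ) : ℝ) : ℂ) := by
    simpa only [Complex.ofReal_intCast] using f_qe
  have m : ∀ Q : ℕ, Odd Q → kr D (-(Q : ℤ)) = -J(D | Q) := fun Q hQ => by
    rw [← neg_one_mul, kr_mul hD, kr_m1 hD h0, kr_odd hD hQ, neg_one_mul]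
  have c3 : ¬ (3 : ℤ) ∣ D → IsCoprime (3 : ℤ) D := fun h =>
    (Int.prime_three.irreducible.coprime_iff_not_dvd).2 h
  have c5 : ¬ (5 : ℤ) ∣ D → IsCoprime (5 : ℤ) D := fun h =>
    ((Int.prime_iff_natAbs_prime.2 (by norm_num) : Prime (5 : ℤ)).irreducible.coprime_iff_not_dvd).2 h
  unfold Good
  by_cases h3 : (3 : ℤ) ∣ D <;> by_cases h5 : (5 : ℤ) ∣ D
  · have := par_fe hr hD (P004N.H880.fe_pure (g := 15) q w1 rfl one_pos (.inl rfl) hD
      (by simpa using isCoprime_one_left) (by omega))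
    rw [← this, m 1 odd_one, jacobiSym.one_right]
    simp only [Int.cast_neg, Int.cast_one, mul_neg, mul_one, neg_neg, true_iff]
    omega
  · have := par_fe hr hD (P004N.H880.fe_pure (g := 3) q w5 rfl (by norm_num) (.inr rfl) hD
      (c5 h5) h3)
    rw [← this, m 5 (by decide), j5]
    split_ifs with a b
    · norm_num; omega
    · omega
    · norm_num; omega
  · have := par_fe hr hD (P004N.H880.fe_pure (g := 5) q w3 rfl (by norm_num) (.inl rfl) hD
      (c3 h3) h5)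
    rw [← this, m 3 (by decide), j3]
    split_ifs with a b
    · norm_num; omega
    · norm_num; omega
    · omega
  · have := par_fe hr hD (P004N.H880.fe_pure (g := 1) q w15 rfl (by norm_num) (.inr rfl) hD
      (by simpa using (c3 h3).mul_left (c5 h5)) (by simp))
    rw [← this, m 15 (by decide), show 15 = 3 * 5 from rfl, jacobiSym.mul_right, j3, j5]
    split_ifs with a b c d e
    all_goals first | omega | (norm_num; omega)

lemma el15 : P014T.Top.El (-12987) (-263466) := by norm_num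

theorem base15 : ∃ r : ℤ → ℕ, (∀ D, Fd D → IsAnRank (twist (-12987) (-263466) D) (r D)) ∧ Dens r ∧
    (∀ k, 1 ≤ k → P004N.T8.Mean r k) ∧ ∀ D, Fd D → D < 0 → (Even (r D) ↔ Good D) := by
  obtain ⟨r, k1, k2, k3⟩ := P004T.dens_all
    (P004F.conv3 (P004R.anchor_red.or P004C.anchor_irr)) f_ef fun _ _ => (Classical.em _).symm
  refine ⟨r, fun D hD => ?_, k2, fun k hk => (k3 k hk).2.2.1 k2, fun D => par15 k1⟩
  obtain ⟨M, g, b, ε, hT, -⟩ := P004N.exists_isTw f_ef hD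
  obtain ⟨L, h1, -, -, h4⟩ := k1 D hD M g b ε hT
  obtain ⟨L', h5, h6⟩ := P004N.ell_isEll f_ef hD hT h1 el15 f_att
  exact ⟨L', h5.1, h5.2, h6.trans h4⟩

end Vale.Agent.N017
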