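import Vale.Agent.P004H.H792.Q11
import Vale.Agent.P004H.H204.E5
import Vale.Agent.P022.H29.L3.Sturm

/-!
# P017: integral power series as functions on the upper half plane
-/

open UpperHalfPlane hiding I
open Complex Filter Topology Asymptotics PowerSeries
open scoped Real

namespace Vale.Agent.N017

open P004H.H204 (Conv CR ev evH th qq norm_qq norm_qq_lt conv_th conv_X E2c coeff_th)
open P004H.H792 (EP ee)

/-- complex coefficients -/
noncomputable abbrev cx : ℤ⟦X⟧ →+* ℂ⟦X⟧ := PowerSeries.map (Int.castRingHom ℂ)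

/-- the integral series which converge on the unit disc -/
noncomputable def CZ : Subring ℤ⟦X⟧ := CR.comap cx

/-- the value at `q = exp (2 π i z)` -/
noncomputable def eZ (z : ℍ) : CZ →+* ℂ :=
  (evH (qq z) (norm_qq_lt z.2)).comp (cx.restrict CZ CR fun _ h => h)

lemma eZ_ap (z : ℍ) (p : CZ) : eZ z p = ev (cx p) (qq z) := rfl

lemma eZ_sum (p : CZ) (z : ℍ) :
    HasSum (fun n => ((coeff n p.1 : ℤ) : ℂ) * qq z ^ n) (eZ z p) := by
  simpa [eZ_ap] using Conv.hasSum p.2 (norm_qq_lt z.2)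

lemma eZ_O (p : CZ) {m : ℕ} (h : X ^ m ∣ p.1) :
    (fun z => eZ z p) =O[atImInfty] fun τ => Real.exp (-(2 * π * m * τ.im)) := by
  have := P022.H29.L3.isBigO_of_hasSum (a := fun n => ((coeff n p.1 : ℤ) : ℂ)) one_pos
    (F := fun z => eZ z p) (fun τ => by
      simpa [Function.Periodic.qParam, qq] using eZ_sum p τ) (m := m)
    fun n hn => by rw [X_pow_dvd_iff.1 h n hn, Int.cast_zero]
  simpa using this

lemma eZ_inj (p : CZ) (h : ∀ z, eZ z p = 0) : p = 0 := by
  have h1 : cx p = 0 := Conv.eq_zero p.2 fun q h0 h1 => by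
    have h2 : (2 * π * I : ℂ) ≠ 0 := by simp [Real.pi_ne_zero]
    have e : qq (log q / (2 * π * I)) = q := by rw [qq, mul_div_cancel₀ _ h2, exp_log h0]
    have h3 := norm_qq (log q / (2 * π * I))
    rw [e] at h3
    rw [h3, Real.exp_lt_one_iff] at h1
    have := h ⟨log q / (2 * π * I), by nlinarith [Real.pi_pos]⟩
    rwa [eZ_ap, coe_mk, e] at this
  exact Subtype.ext (PowerSeries.map_injective _ (Int.cast_injective (α := ℂ))
    (h1.trans (map_zero _).symm))

lemma tendsto_qq : Tendsto qq (comap Complex.im atTop) (𝓝 0) := by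
  rw [tendsto_zero_iff_norm_tendsto_zero]
  simp only [norm_qq]
  exact Real.tendsto_exp_neg_atTop_nhds_zero.comp
    (tendsto_comap.const_mul_atTop (by positivity))

lemma eZ_lim (p : CZ) : Tendsto (fun z => eZ z p) atImInfty (𝓝 (constantCoeff p.1 : ℤ)) := by
  have := (Conv.tendsto p.2).comp (tendsto_qq.comp tendsto_coe_atImInfty)
  rw [← coeff_zero_eq_constantCoeff_apply, coeff_map, coeff_zero_eq_constantCoeff_apply] at this
  exact this

lemma eZ_diff (p : CZ) {z : ℂ} (hz : 0 < z.im) :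
    HasDerivAt (fun w => ev (cx p) (qq w)) (2 * π * I * ev (cx (th p.1)) (qq z)) z := by
  have e : cx (th p.1) = th (cx p) := by
    ext n
    simp [coeff_th]
  rw [e]
  exact Conv.hasDerivAt p.2 hz

/-- `q` -/
noncomputable def x : CZ := ⟨X, show cx X ∈ CR from map_X (f := Int.castRingHom ℂ) ▸ conv_X⟩

/-- `q d/dq` -/
noncomputable def dd (p : CZ) : CZ := ⟨th p.1, by
  have e : cx (th p.1) = th (cx p) := by
    ext n
    simp [coeff_th]
  exact show cx (th p.1) ∈ CR from e ▸ conv_th p.2⟩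

lemma eZ_x (z : ℍ) : eZ z x = qq z := by
  simp [eZ_ap, x, P004H.H204.ev_X]

/-- the Euler product -/
noncomputable def PP (q : ℂ) : ℂ := ∏' n, (1 - q ^ (n + 1))

lemma hasSum_P {d : ℕ} (hd : d ≠ 0) {q : ℂ} (hq : ‖q‖ < 1) :
    HasSum (fun n => coeff n (cx (expand d hd EP)) * q ^ n) (PP (q ^ d)) := by
  have h := P004H.H792.hasSum_euler (q := q ^ d)
    (by rw [norm_pow]; exact pow_lt_one₀ (norm_nonneg _) hq hd)
  rw [← (mul_right_injective₀ hd).hasSum_iff]
  · refine h.congr_fun fun n => ?_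
    simp only [Function.comp_apply, coeff_map, pow_mul]
    rw [coeff_expand_mul]
    rfl
  · intro n hn
    rw [coeff_map, coeff_expand_of_not_dvd _ _ _ fun ⟨k, hk⟩ => hn ⟨k, hk.symm⟩]
    simp

/-- the Euler product at `q ^ d` -/
noncomputable def pd (d : ℕ) (hd : d ≠ 0) : CZ := ⟨expand d hd EP, fun r h0 h1 => by
  simpa [abs_of_nonneg h0] using
    (hasSum_P hd (q := r) (by rwa [norm_real, Real.norm_of_nonneg h0])).summable.norm⟩

lemma ev_pd {d : ℕ} (hd : d ≠ 0) {z : ℂ} (hz : 0 < z.im) :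
    ev (cx (pd d hd)) (qq z) = PP (qq z ^ d) := (hasSum_P hd (norm_qq_lt hz)).tsum_eq

lemma eta_eq (z : ℂ) : ModularForm.eta z = cexp (2 * π * I * z / 24) * PP (qq z) := by
  simp only [ModularForm.eta, ModularForm.eta_q_eq_pow, Function.Periodic.qParam]
  norm_num [PP, qq]

lemma qq_mul (d : ℕ) (z : ℂ) : qq (d * z) = qq z ^ d := by
  rw [qq, qq, ← exp_nat_mul]
  congr 1
  ring

lemma ee_eq (z : ℂ) : ee z = cexp (2 * π * I * z / 12) * PP (qq z) ^ 2 := by
  rw [ee, eta_eq, mul_pow, ← exp_nat_mul]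
  congr 2
  push_cast
  ring

lemma ee_pd {d : ℕ} (hd : d ≠ 0) (z : ℍ) :
    ee (d * z) = cexp (2 * π * I * z / 12) ^ d * eZ z (pd d hd) ^ 2 := by
  rw [ee_eq, eZ_ap, ev_pd hd z.2, qq_mul, ← exp_nat_mul]
  congr 2
  ring

lemma im_mul {d : ℕ} (hd : d ≠ 0) {z : ℂ} (hz : 0 < z.im) : 0 < (d * z).im := by
  have : (0 : ℝ) < d := by positivity
  simpa using mul_pos this hz

lemma pd_ne {d : ℕ} (hd : d ≠ 0) (z : ℍ) : eZ z (pd d hd) ≠ 0 := fun h => by
  have := ee_pd hd z
  rw [h, zero_pow two_ne_zero, mul_zero] at this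
  exact pow_ne_zero 2 (ModularForm.eta_ne_zero (im_mul hd z.2)) this

/-- the logarithmic derivative -/
lemma E2_pd {d : ℕ} (hd : d ≠ 0) (z : ℍ) :
    d * E2c (d * z) * eZ z (pd d hd) = d * eZ z (pd d hd) + 24 * eZ z (dd (pd d hd)) := by
  have hz := im_mul hd z.2
  have h1 := ModularForm.logDeriv_eta_eq_E2 ⟨_, hz⟩
  rw [← P004H.H204.E2c_eq hz, logDeriv_apply, div_eq_iff (ModularForm.eta_ne_zero hz)] at h1
  have h2 := (ModularForm.differentiableAt_eta_of_mem_upperHalfPlaneSet hz).hasDerivAt.comp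
    (z : ℂ) ((hasDerivAt_id (z : ℂ)).const_mul (d : ℂ))
  have h3 := ((((hasDerivAt_id (z : ℂ)).const_mul (d : ℂ)).const_mul (2 * π * I)).div_const
    24).cexp.mul (eZ_diff (pd d hd) z.2)
  have h4 := h2.unique (h3.congr_of_eventuallyEq (by
    filter_upwards [(isOpen_lt continuous_const Complex.continuous_im).mem_nhds z.2] with w hw
    simp only [Function.comp_apply, id, Pi.mul_apply]
    rw [eta_eq, ev_pd hd hw, qq_mul]))
  simp only [id] at h1 h4
  rw [h1, eta_eq, qq_mul, ← ev_pd hd z.2] at h4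
  have h5 : cexp (2 * π * I * (d * z) / 24) * (π * I) ≠ 0 := by
    simp [Real.pi_ne_zero]
  refine mul_left_cancel₀ h5 ?_
  simp only [eZ_ap, dd]
  linear_combination 12 * h4

lemma PP_lim : Tendsto (fun w => PP (qq w)) (comap Complex.im atTop) (𝓝 1) := by
  have h1 : ContinuousAt PP 0 :=
    (ModularForm.differentiableOn_tprod_one_sub_pow.differentiableAt
      (Metric.isOpen_ball.mem_nhds (Metric.mem_ball_self one_pos))).continuousAt
  have := h1.tendsto.comp tendsto_qq
  rwa [show PP 0 = 1 by simp [PP]] at this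

lemma ee_lim : Tendsto (fun w => ‖ee w‖ * Real.exp (π / 6 * w.im)) (comap Complex.im atTop)
    (𝓝 1) := by
  have := PP_lim.norm.pow 2
  rw [norm_one, one_pow] at this
  refine this.congr fun w => ?_
  rw [ee_eq, norm_mul, norm_exp, norm_pow, mul_right_comm, ← Real.exp_add]
  simp
  ring_nf
  simp

end Vale.Agent.N017
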